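import Mathlib

/-! Norms that are linear near a point, exit points of lines from the unit ball, and the
four-point lemma for parallel chords. -/

namespace Vale.Agent.P084.LL

open Metric Set Filter Topology

variable {E : Type*} [NormedAddCommGroup E] [NormedSpace ℝ E]

/-- The norm agrees with `χ` near `v`. -/
def Lin (χ : StrongDual ℝ E) (v : E) : Prop := ∀ᶠ w in 𝓝 v, ‖w‖ = χ w

theorem Lin.eq_self {χ : StrongDual ℝ E} {v : E} (h : Lin χ v) : ‖v‖ = χ v :=
  Filter.Eventually.self_of_nhds (p := fun w => ‖w‖ = χ w) h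

theorem isOpen_lin (χ : StrongDual ℝ E) : IsOpen {v | Lin χ v} :=
  isOpen_iff_eventually.2 fun _ hv => eventually_eventually_nhds.2 hv

theorem Lin.apply_le {χ : StrongDual ℝ E} {v : E} (h : Lin χ v) (u : E) : χ u ≤ ‖u‖ := by
  have hc : Tendsto (fun t : ℝ => v + t • u) (𝓝[>] 0) (𝓝 v) := by
    have : Continuous fun t : ℝ => v + t • u := by fun_prop
    simpa using (this.tendsto 0).mono_left nhdsWithin_le_nhds
  obtain ⟨t, ht, ht0⟩ := ((hc.eventually h).and self_mem_nhdsWithin).exists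
  have ht0' : (0 : ℝ) < t := ht0
  have h1 := norm_add_le v (t • u)
  rw [ht, map_add, map_smul, norm_smul, Real.norm_of_nonneg ht0'.le, h.eq_self,
    smul_eq_mul] at h1
  nlinarith

theorem Lin.abs_le {χ : StrongDual ℝ E} {v : E} (h : Lin χ v) (u : E) : |χ u| ≤ ‖u‖ := by
  refine abs_le'.2 ⟨h.apply_le u, ?_⟩
  have := h.apply_le (-u)
  simpa using this

theorem Lin.smul {χ : StrongDual ℝ E} {v : E} (h : Lin χ v) {c : ℝ} (hc : 0 < c) :
    Lin χ (c • v) := by
  have ht : Tendsto (fun w : E => c⁻¹ • w) (𝓝 (c • v)) (𝓝 v) := by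
    have : Continuous fun w : E => c⁻¹ • w := by fun_prop
    simpa [smul_smul, inv_mul_cancel₀ hc.ne'] using this.tendsto (c • v)
  filter_upwards [ht.eventually h] with w hw
  rw [norm_smul, norm_inv, Real.norm_of_nonneg hc.le, map_smul, smul_eq_mul] at hw
  exact mul_left_cancel₀ (inv_ne_zero hc.ne') hw

theorem Lin.add {χ : StrongDual ℝ E} {a b : E} (ha : Lin χ a) (hb : Lin χ b) :
    Lin χ (a + b) := by
  have ht : Tendsto (fun w : E => w - b) (𝓝 (a + b)) (𝓝 a) := by
    have : Continuous fun w : E => w - b := by fun_prop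
    simpa using this.tendsto (a + b)
  filter_upwards [ht.eventually ha] with w hw
  refine le_antisymm ?_ (ha.apply_le w)
  have := norm_add_le (w - b) b
  rw [sub_add_cancel, hw, hb.eq_self, map_sub, sub_add_cancel] at this
  exact this

theorem Lin.neg {χ : StrongDual ℝ E} {v : E} (h : Lin χ v) : Lin (-χ) (-v) := by
  have ht : Tendsto (fun w : E => -w) (𝓝 (-v)) (𝓝 v) := by
    simpa using (continuous_neg (G := E)).tendsto (-v)
  filter_upwards [ht.eventually h] with w hw
  simpa using hw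

theorem Lin.unique {χ ψ : StrongDual ℝ E} {v : E} (h : Lin χ v) (h' : Lin ψ v) : χ = ψ := by
  ext u
  have hc : Tendsto (fun t : ℝ => v + t • u) (𝓝[>] 0) (𝓝 v) := by
    have : Continuous fun t : ℝ => v + t • u := by fun_prop
    simpa using (this.tendsto 0).mono_left nhdsWithin_le_nhds
  obtain ⟨t, ⟨ht, ht'⟩, ht0⟩ :=
    (((hc.eventually h).and (hc.eventually h')).and self_mem_nhdsWithin).exists
  have ht0' : (0 : ℝ) < t := ht0
  rw [ht, map_add, map_smul, map_add, map_smul, ← h.eq_self, ← h'.eq_self, smul_eq_mul,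
    smul_eq_mul] at ht'
  exact mul_left_cancel₀ ht0'.ne' (add_left_cancel ht')

theorem Lin.ne_zero [Nontrivial E] {χ : StrongDual ℝ E} {v : E} (h : Lin χ v) : v ≠ 0 := by
  rintro rfl
  obtain ⟨u, hu⟩ := exists_ne (0 : E)
  have h' : Lin (-χ) (0 : E) := by simpa using h.neg
  have e := h.unique h'
  have hχ : χ = 0 := by
    ext x
    have := congrArg (fun L : StrongDual ℝ E => L x) e
    simp at this
    simp
    linarith
  have hc : Tendsto (fun t : ℝ => t • u) (𝓝[>] 0) (𝓝 (0 : E)) := by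
    have : Continuous fun t : ℝ => t • u := by fun_prop
    simpa using (this.tendsto 0).mono_left nhdsWithin_le_nhds
  obtain ⟨t, ht, ht0⟩ := ((hc.eventually h).and self_mem_nhdsWithin).exists
  have ht0' : (0 : ℝ) < t := ht0
  rw [hχ] at ht
  simp only [zero_apply, norm_eq_zero, smul_eq_zero] at ht
  rcases ht with h0 | h0
  · exact ht0'.ne' h0
  · exact hu h0

/-- If two unit vectors have a sum of norm two, the norm is additive on their positive cone. -/
theorem norm_combo {a b : E} (ha : ‖a‖ = 1) (hb : ‖b‖ = 1) (hab : ‖a + b‖ = 2) {p q : ℝ}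
    (hp : 0 ≤ p) (hq : 0 ≤ q) : ‖p • a + q • b‖ = p + q := by
  have hle : ‖p • a + q • b‖ ≤ p + q := by
    refine (norm_add_le _ _).trans (le_of_eq ?_)
    rw [norm_smul, norm_smul, Real.norm_of_nonneg hp, Real.norm_of_nonneg hq, ha, hb, mul_one,
      mul_one]
  refine le_antisymm hle ?_
  rcases le_total q p with h | h
  · have e : p • a + q • b = p • (a + b) - (p - q) • b := by module
    have := norm_sub_norm_le (p • (a + b)) ((p - q) • b)
    rw [← e, norm_smul, norm_smul, Real.norm_of_nonneg hp,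
      Real.norm_of_nonneg (sub_nonneg.2 h), hab, hb] at this
    linarith
  · have e : p • a + q • b = q • (a + b) - (q - p) • a := by module
    have := norm_sub_norm_le (q • (a + b)) ((q - p) • a)
    rw [← e, norm_smul, norm_smul, Real.norm_of_nonneg hq,
      Real.norm_of_nonneg (sub_nonneg.2 h), hab, ha] at this
    linarith

/-- An interior point of a segment from the open ball to the closed ball is in the open ball. -/
theorem norm_between {m x : E} (hm : ‖m‖ < 1) (hx : ‖x‖ ≤ 1) {r : ℝ} (hr0 : 0 ≤ r) (hr1 : r < 1) :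
    ‖(1 - r) • m + r • x‖ < 1 := by
  refine lt_of_le_of_lt (norm_add_le _ _) ?_
  rw [norm_smul, norm_smul, Real.norm_of_nonneg (by linarith), Real.norm_of_nonneg hr0]
  nlinarith [norm_nonneg m, norm_nonneg x]

theorem exit_exists {m d : E} (hm : ‖m‖ < 1) (hd : d ≠ 0) :
    ∃ s : ℝ, 0 < s ∧ ‖m + s • d‖ = 1 := by
  have hdp : 0 < ‖d‖ := norm_pos_iff.2 hd
  have hc : Continuous fun t : ℝ => ‖m + t • d‖ := by fun_prop
  have hb : 1 ≤ ‖m + (2 / ‖d‖) • d‖ := by
    have h1 : ‖(2 / ‖d‖) • d‖ = 2 := by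
      rw [norm_smul, Real.norm_of_nonneg (by positivity)]
      field_simp
    have := norm_sub_le (m + (2 / ‖d‖) • d) m
    rw [add_sub_cancel_left, h1] at this
    linarith
  obtain ⟨t, ⟨ht0, -⟩, ht : ‖m + t • d‖ = 1⟩ :=
    intermediate_value_Icc (by positivity : (0 : ℝ) ≤ 2 / ‖d‖) hc.continuousOn
      (show (1 : ℝ) ∈ Icc ‖m + (0 : ℝ) • d‖ ‖m + (2 / ‖d‖) • d‖ from ⟨by simp; linarith, hb⟩)
  refine ⟨t, lt_of_le_of_ne ht0 ?_, ht⟩
  rintro rfl
  simp at ht
  linarith

theorem exit_unique {m d : E} (hm : ‖m‖ < 1) {s t : ℝ} (hs : 0 < s) (ht : 0 < t)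
    (h1 : ‖m + s • d‖ = 1) (h2 : ‖m + t • d‖ = 1) : s = t := by
  by_contra hne
  wlog hlt : s < t generalizing s t
  · exact this ht hs h2 h1 (Ne.symm hne) (lt_of_le_of_ne (not_lt.1 hlt) (Ne.symm hne))
  have e : m + s • d = (1 - s / t) • m + (s / t) • (m + t • d) := by
    have : s / t * t = s := div_mul_cancel₀ s ht.ne'
    rw [smul_add, smul_smul, this]
    module
  have := norm_between hm h2.le (r := s / t) (by positivity) (by rw [div_lt_one ht]; exact hlt)
  rw [← e, h1] at this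
  exact lt_irrefl _ this

open Classical in
/-- The parameter where the ray leaves the unit ball. -/
noncomputable def exitS (m d : E) : ℝ :=
  if h : ‖m‖ < 1 ∧ d ≠ 0 then (exit_exists h.1 h.2).choose else 0

theorem exitS_spec {m d : E} (hm : ‖m‖ < 1) (hd : d ≠ 0) :
    0 < exitS m d ∧ ‖m + exitS m d • d‖ = 1 := by
  rw [exitS, dif_pos ⟨hm, hd⟩]
  exact (exit_exists hm hd).choose_spec

theorem exitS_eq {m d : E} (hm : ‖m‖ < 1) (hd : d ≠ 0) {s : ℝ} (hs : 0 < s)
    (h : ‖m + s • d‖ = 1) : exitS m d = s :=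
  exit_unique hm (exitS_spec hm hd).1 hs (exitS_spec hm hd).2 h

theorem exitS_continuousAt {m d : E} (hm : ‖m‖ < 1) (hd : d ≠ 0) :
    ContinuousAt (fun p : E × E => exitS p.1 p.2) (m, d) := by
  obtain ⟨hs, he⟩ := exitS_spec hm hd
  set s := exitS m d with hsdef
  rw [Metric.continuousAt_iff']
  intro ε hε
  set η := min (ε / 2) (s / 2) with hη
  have hη0 : 0 < η := lt_min (by linarith) (by linarith)
  have hηε : η ≤ ε / 2 := min_le_left _ _
  have hηs : η ≤ s / 2 := min_le_right _ _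
  have hlo : ‖m + (s - η) • d‖ < 1 := by
    have e : m + (s - η) • d = (1 - (s - η) / s) • m + ((s - η) / s) • (m + s • d) := by
      have : (s - η) / s * s = s - η := div_mul_cancel₀ _ hs.ne'
      rw [smul_add, smul_smul, this]
      module
    rw [e]
    exact norm_between hm he.le (div_nonneg (by linarith) hs.le)
      (by rw [div_lt_one hs]; linarith)
  have hhi : 1 < ‖m + (s + η) • d‖ := by
    by_contra hle
    push Not at hle
    have e : m + s • d = (1 - s / (s + η)) • m + (s / (s + η)) • (m + (s + η) • d) := by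
      have : s / (s + η) * (s + η) = s := div_mul_cancel₀ _ (by linarith)
      rw [smul_add, smul_smul, this]
      module
    have := norm_between hm hle (r := s / (s + η)) (by positivity)
      (by rw [div_lt_one (by linarith)]; linarith)
    rw [← e, he] at this
    exact lt_irrefl _ this
  have c1 : Continuous fun p : E × E => ‖p.1 + (s - η) • p.2‖ := by fun_prop
  have c2 : Continuous fun p : E × E => ‖p.1 + (s + η) • p.2‖ := by fun_prop
  have c3 : Continuous fun p : E × E => ‖p.1‖ := by fun_prop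
  filter_upwards [(c1.tendsto (m, d)).eventually_lt_const hlo,
    (c2.tendsto (m, d)).eventually_const_lt hhi,
    (c3.tendsto (m, d)).eventually_lt_const hm,
    (continuous_snd.tendsto (m, d)).eventually_ne hd] with p h1 h2 h3 h4
  have hc : Continuous fun t : ℝ => ‖p.1 + t • p.2‖ := by fun_prop
  obtain ⟨t, ⟨ht1, ht2⟩, ht : ‖p.1 + t • p.2‖ = 1⟩ :=
    intermediate_value_Icc (by linarith : s - η ≤ s + η) hc.continuousOn
      (show (1 : ℝ) ∈ Icc ‖p.1 + (s - η) • p.2‖ ‖p.1 + (s + η) • p.2‖ from ⟨h1.le, h2.le⟩)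
  rw [exitS_eq h3 h4 (by linarith) ht, Real.dist_eq, abs_lt]
  constructor <;> linarith

/-- The point where the ray leaves the unit ball. -/
noncomputable def exitP (m d : E) : E := m + exitS m d • d

theorem norm_exitP {m d : E} (hm : ‖m‖ < 1) (hd : d ≠ 0) : ‖exitP m d‖ = 1 :=
  (exitS_spec hm hd).2

theorem exitP_eq {m d : E} (hm : ‖m‖ < 1) (hd : d ≠ 0) {s : ℝ} (hs : 0 < s)
    (h : ‖m + s • d‖ = 1) : exitP m d = m + s • d := by
  rw [exitP, exitS_eq hm hd hs h]

theorem exitP_continuousAt {m d : E} (hm : ‖m‖ < 1) (hd : d ≠ 0) :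
    ContinuousAt (fun p : E × E => exitP p.1 p.2) (m, d) :=
  continuousAt_fst.add ((exitS_continuousAt hm hd).smul continuousAt_snd)

theorem exists_norming (v : E) : ∃ ψ : StrongDual ℝ E, ψ v = ‖v‖ ∧ ∀ u, ψ u ≤ ‖u‖ := by
  obtain ⟨ψ, hψ, hv⟩ := exists_dual_vector'' ℝ v
  refine ⟨ψ, by simpa using hv, fun u => ?_⟩
  exact (le_abs_self _).trans ((ψ.le_opNorm u).trans (mul_le_of_le_one_left (norm_nonneg u) hψ))

/-- If the distance between two small caps is a sum of functions of the endpoints, the norm is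
linear near their difference. -/
theorem separable_lin {A B : E} (hA : ‖A‖ = 1) (hB : ‖B‖ = 1) (hne : A ≠ B)
    (hmid : ‖A + B‖ < 2) {W₁ W₂ : Set E} (hW₁ : W₁ ∈ 𝓝 A) (hW₂ : W₂ ∈ 𝓝 B)
    (hsep : ∀ X ∈ W₁, ∀ Z ∈ W₂, ‖X‖ = 1 → ‖Z‖ = 1 →
      ‖X - Z‖ + ‖A - B‖ = ‖X - B‖ + ‖A - Z‖) :
    ∃ ψ : StrongDual ℝ E, Lin ψ (A - B) := by
  obtain ⟨ψ, hψ, hψle⟩ := exists_norming (A - B)
  refine ⟨ψ, ?_⟩
  set m : E := (1 / 2 : ℝ) • (A + B) with hm
  set h : E := (1 / 2 : ℝ) • (A - B) with hh
  have hm1 : ‖m‖ < 1 := by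
    rw [hm, norm_smul]
    norm_num
    linarith
  have hh0 : h ≠ 0 := smul_ne_zero (by norm_num) (sub_ne_zero.2 hne)
  have hnh : -h ≠ 0 := neg_ne_zero.2 hh0
  have eA : A = m + (1 : ℝ) • h := by rw [hm, hh]; module
  have eB : B = m + (1 : ℝ) • -h := by rw [hm, hh]; module
  have exA : exitP m h = A := by rw [exitP_eq hm1 hh0 one_pos (by rw [← eA, hA]), ← eA]
  have exB : exitP m (-h) = B := by rw [exitP_eq hm1 hnh one_pos (by rw [← eB, hB]), ← eB]
  -- for parallel chords the four-point identity forces `ψ` to norm both cross differences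
  have key : ∀ X ∈ W₁, ∀ Z ∈ W₂, ‖X‖ = 1 → ‖Z‖ = 1 → ∀ c : ℝ, 0 ≤ c → X - Z = c • (A - B) →
      ψ (X - B) = ‖X - B‖ ∧ ψ (A - Z) = ‖A - Z‖ := by
    intro X hX Z hZ hX1 hZ1 c hc hc'
    have e1 : ψ (X - Z) = ‖X - Z‖ := by
      rw [hc', map_smul, norm_smul, Real.norm_of_nonneg hc, hψ, smul_eq_mul]
    have e2 := hsep X hX Z hZ hX1 hZ1
    have e3 : ψ (X - B) + ψ (A - Z) = ψ (X - Z) + ψ (A - B) := by
      simp only [map_sub]; ring
    have l1 := hψle (X - B)
    have l2 := hψle (A - Z)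
    constructor <;> linarith
  -- left endpoints
  have left : ∀ᶠ X in 𝓝 A, ‖X‖ = 1 → ψ (X - B) = ‖X - B‖ := by
    have t0 : Tendsto (fun X : E => X - h) (𝓝 A) (𝓝 m) := by
      have : Continuous fun X : E => X - h := by fun_prop
      have e : A - h = m := by rw [hm, hh]; module
      simpa [e] using this.tendsto A
    have t1 : Tendsto (fun X : E => exitP (X - h) (-h)) (𝓝 A) (𝓝 B) := by
      rw [← exB]
      exact Filter.Tendsto.comp (exitP_continuousAt hm1 hnh) (t0.prodMk_nhds tendsto_const_nhds)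
    filter_upwards [hW₁, t1.eventually hW₂, t0.norm.eventually_lt_const hm1] with X hX hZ hX' hX1
    refine (key X hX _ hZ hX1 (norm_exitP hX' hnh) ((1 + exitS (X - h) (-h)) / 2)
      (by have := (exitS_spec hX' hnh).1; linarith) ?_).1
    rw [exitP]
    simp only [hh]
    module
  -- right endpoints
  have right : ∀ᶠ Z in 𝓝 B, ‖Z‖ = 1 → ψ (A - Z) = ‖A - Z‖ := by
    have t0 : Tendsto (fun Z : E => Z + h) (𝓝 B) (𝓝 m) := by
      have : Continuous fun Z : E => Z + h := by fun_prop
      have e : B + h = m := by rw [hm, hh]; module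
      simpa [e] using this.tendsto B
    have t1 : Tendsto (fun Z : E => exitP (Z + h) h) (𝓝 B) (𝓝 A) := by
      rw [← exA]
      exact Filter.Tendsto.comp (exitP_continuousAt hm1 hh0) (t0.prodMk_nhds tendsto_const_nhds)
    filter_upwards [hW₂, t1.eventually hW₁, t0.norm.eventually_lt_const hm1] with Z hZ hX hZ' hZ1
    refine (key _ hX Z hZ (norm_exitP hZ' hh0) hZ1 ((1 + exitS (Z + h) h) / 2)
      (by have := (exitS_spec hZ' hh0).1; linarith) ?_).2
    rw [exitP]
    simp only [hh]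
    module
  have u1 : Tendsto (fun w : E => exitP m ((1 / 2 : ℝ) • w)) (𝓝 (A - B)) (𝓝 A) := by
    rw [show 𝓝 A = 𝓝 (exitP m h) by rw [exA]]
    refine Filter.Tendsto.comp (g := fun p : E × E => exitP p.1 p.2)
      (f := fun w : E => (m, (1 / 2 : ℝ) • w)) (exitP_continuousAt hm1 hh0)
      (tendsto_const_nhds.prodMk_nhds ?_)
    exact (continuous_const_smul (1 / 2 : ℝ)).tendsto (A - B)
  have u2 : Tendsto (fun w : E => exitP m (-((1 / 2 : ℝ) • w))) (𝓝 (A - B)) (𝓝 B) := by
    rw [show 𝓝 B = 𝓝 (exitP m (-h)) by rw [exB]]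
    refine Filter.Tendsto.comp (g := fun p : E × E => exitP p.1 p.2)
      (f := fun w : E => (m, -((1 / 2 : ℝ) • w))) (exitP_continuousAt hm1 hnh)
      (tendsto_const_nhds.prodMk_nhds ?_)
    have : Continuous fun w : E => -((1 / 2 : ℝ) • w) := by fun_prop
    exact this.tendsto (A - B)
  filter_upwards [u1.eventually hW₁, u2.eventually hW₂, u1.eventually left, u2.eventually right,
    eventually_ne_nhds (sub_ne_zero.2 hne)] with w h1 h2 h3 h4 hw0
  have hd : (1 / 2 : ℝ) • w ≠ 0 := smul_ne_zero (by norm_num) hw0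
  set d : E := (1 / 2 : ℝ) • w with hdd
  have hd' : -d ≠ 0 := neg_ne_zero.2 hd
  have n1 := norm_exitP hm1 hd
  have n2 := norm_exitP hm1 hd'
  have e := hsep _ h1 _ h2 n1 n2
  have e5 : ψ (exitP m d - exitP m (-d)) = ‖exitP m d - exitP m (-d)‖ := by
    have := h3 n1
    have := h4 n2
    simp only [map_sub] at *
    linarith
  have e6 : exitP m d - exitP m (-d) = ((exitS m d + exitS m (-d)) / 2) • w := by
    simp only [exitP, hdd]
    module
  have hpos : 0 < (exitS m d + exitS m (-d)) / 2 := by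
    have := (exitS_spec hm1 hd).1
    have := (exitS_spec hm1 hd').1
    linarith
  rw [e6, map_smul, norm_smul, Real.norm_of_nonneg hpos.le, smul_eq_mul] at e5
  exact (mul_left_cancel₀ hpos.ne' e5).symm

end Vale.Agent.P084.LL
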