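import Mathlib

/-! The Mazur-Ulam property, against arbitrary normed targets. -/

namespace Vale.Agent.P084.LL

universe u v

/-- Every surjective isometry from the unit sphere of `X` onto that of a normed space extends
linearly. -/
def MUP (X : Type u) [NormedAddCommGroup X] [NormedSpace ℝ X] : Prop :=
  ∀ (Y : Type v) [NormedAddCommGroup Y] [NormedSpace ℝ Y]
    (f : Metric.sphere (0 : X) 1 → Metric.sphere (0 : Y) 1), Isometry f → Function.Surjective f →
      ∃ T : X ≃ₗᵢ[ℝ] Y, ∀ x : Metric.sphere (0 : X) 1, T (x : X) = (f x : Y)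

end Vale.Agent.P084.LL
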