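import Vale.Agent.P084.LL.Extend
import Vale.Agent.P084.LL.Defs
import Vale.Agent.P084.FinMain

/-! Every normed space has arbitrarily close norms with the Mazur-Ulam property: caps are cut from
the ball along a maximal biorthogonal system, tilted by a separating family of functionals. -/

namespace Vale.Agent.P084.LL

open Metric Set Filter Topology
open scoped BoundedContinuousFunction

universe u v

variable {X : Type u} [NormedAddCommGroup X] [NormedSpace ℝ X]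

/-- Bounded biorthogonal systems in the kernel of `φ₀`, orthogonal to `v₀`. -/
def Biorth (φ₀ : StrongDual ℝ X) (v₀ : X) (P : Set (StrongDual ℝ X × X)) : Prop :=
  (∀ p ∈ P, ‖p.1‖ ≤ 4 ∧ ‖p.2‖ ≤ 1 ∧ p.1 p.2 = 1 ∧ p.1 v₀ = 0 ∧ φ₀ p.2 = 0) ∧
    ∀ p ∈ P, ∀ q ∈ P, p ≠ q → p.1 q.2 = 0

/-- The span of the vectors of a system and the base vector. -/
def vspan (v₀ : X) (P : Set (StrongDual ℝ X × X)) : Submodule ℝ X :=
  Submodule.span ℝ (insert v₀ (Prod.snd '' P))

/-- A maximal system admits no further vector away from its span. -/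
theorem not_maximal {φ₀ : StrongDual ℝ X} {v₀ : X} {P : Set (StrongDual ℝ X × X)}
    (hP : Maximal (fun Q => Biorth φ₀ v₀ Q) P) {w : X} (hw : ‖w‖ = 1) (hφw : φ₀ w = 0)
    (hψw : ∀ p ∈ P, p.1 w = 0) (hfar : ∀ s ∈ vspan v₀ P, ‖s‖ ≤ 2 * ‖s + w‖) : False := by
  set S := (vspan v₀ P).topologicalClosure with hS
  have hcl : IsClosed (S : Set X) := Submodule.isClosed_topologicalClosure _
  have hfar' : ∀ s ∈ S, ‖s‖ ≤ 2 * ‖s + w‖ := by
    have hC : IsClosed {s : X | ‖s‖ ≤ 2 * ‖s + w‖} := isClosed_le (by fun_prop) (by fun_prop)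
    exact closure_minimal hfar hC
  have hlow : ∀ s ∈ S, (1 : ℝ) / 3 ≤ ‖w + s‖ := by
    intro s hs
    have h1 := hfar' s hs
    have h2 := norm_sub_norm_le w (-s)
    rw [norm_neg, hw, sub_neg_eq_add] at h2
    rw [add_comm w s] at h2 ⊢
    linarith
  have : IsClosed (S : Set X) := hcl
  have hq : (1 : ℝ) / 3 ≤ ‖(S.mkQL w : X ⧸ S)‖ := by
    change _ ≤ ‖(Submodule.Quotient.mk w : X ⧸ S)‖
    refine le_of_forall_gt fun r hr => ?_
    obtain ⟨m, hm, hmr⟩ := (QuotientAddGroup.norm_lt_iff (S := S.toAddSubgroup)).1 hr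
    have hmem : m - w ∈ S := (Submodule.Quotient.eq S).1 hm
    have := hlow _ hmem
    rw [add_sub_cancel] at this
    linarith
  obtain ⟨g, hg, hgv⟩ := exists_dual_vector'' ℝ (S.mkQL w)
  set r := ‖(S.mkQL w : X ⧸ S)‖ with hr
  have hrp : 0 < r := by linarith
  set ψ : StrongDual ℝ X := r⁻¹ • g.comp S.mkQL with hψ
  have hgv' : g (S.mkQL w) = r := by simpa using hgv
  have hψS : ∀ s ∈ S, ψ s = 0 := fun s hs => by
    simp [hψ, (Submodule.Quotient.mk_eq_zero S).2 hs]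
  have hψ1 : ψ w = 1 := by
    change r⁻¹ * g (S.mkQL w) = 1
    rw [hgv', inv_mul_cancel₀ hrp.ne']
  have hψ4 : ‖ψ‖ ≤ 4 := by
    refine ψ.opNorm_le_bound (by norm_num) fun x => ?_
    change ‖r⁻¹ * g (S.mkQL x)‖ ≤ _
    rw [norm_mul, norm_inv, Real.norm_of_nonneg hrp.le]
    have h1 : ‖g (S.mkQL x)‖ ≤ ‖x‖ :=
      ((g.le_opNorm _).trans (mul_le_of_le_one_left (norm_nonneg _) hg)).trans
        (Submodule.Quotient.norm_mk_le S x)
    have h2 : r⁻¹ ≤ 4 := by
      rw [inv_le_comm₀ hrp (by norm_num)]; linarith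
    exact mul_le_mul h2 h1 (norm_nonneg _) (by norm_num)
  have hmemS : ∀ x ∈ insert v₀ (Prod.snd '' P), x ∈ S := fun x hx =>
    Submodule.le_topologicalClosure _ (Submodule.subset_span hx)
  have hnew : Biorth φ₀ v₀ (insert (ψ, w) P) := by
    refine ⟨?_, ?_⟩
    · rintro p (rfl | hp)
      · exact ⟨hψ4, hw.le, hψ1, hψS _ (hmemS _ (mem_insert _ _)), hφw⟩
      · exact hP.1.1 p hp
    · rintro p (rfl | hp) q (rfl | hq') hne
      · exact absurd rfl hne
      · exact hψS _ (hmemS _ (mem_insert_of_mem _ ⟨q, hq', rfl⟩))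
      · exact hψw p hp
      · exact hP.1.2 p hp q hq' hne
  have hin : (ψ, w) ∈ P := hP.2 hnew (subset_insert _ _) (mem_insert _ _)
  have := hψw _ hin
  rw [hψ1] at this
  exact one_ne_zero this

/-- A maximal system is infinite, and as large as some separating family of functionals. -/
theorem exists_system (hinf : ¬ FiniteDimensional ℝ X) :
    ∃ (φ₀ : StrongDual ℝ X) (v₀ : X) (P : Set (StrongDual ℝ X × X)) (T : P → StrongDual ℝ X),
      (∀ x, |φ₀ x| ≤ ‖x‖) ∧ ‖v₀‖ = 1 ∧ φ₀ v₀ = 1 ∧ P.Nonempty ∧ Biorth φ₀ v₀ P ∧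
      ∀ x, φ₀ x = 0 → (∀ p : P, p.1.1 x = 0) → (∀ p, T p x = 0) → x = 0 := by
  classical
  have : Nontrivial X := by
    by_contra h
    rw [not_nontrivial_iff_subsingleton] at h
    exact hinf inferInstance
  obtain ⟨v₀, hv₀⟩ : ∃ v₀ : X, ‖v₀‖ = 1 := exists_norm_eq X zero_le_one
  obtain ⟨φ₀, hφ₀, hφ₀le⟩ := exists_norming v₀
  rw [hv₀] at hφ₀
  obtain ⟨P, hP⟩ : ∃ P, Maximal (fun Q => Biorth φ₀ v₀ Q) P := by
    obtain ⟨P, hP⟩ := zorn_subset {Q : Set (StrongDual ℝ X × X) | Biorth φ₀ v₀ Q}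
      fun c hc hch => ⟨⋃₀ c, ⟨fun p ⟨Q, hQ, hp⟩ => (hc hQ).1 p hp, fun p ⟨Q, hQ, hp⟩ q ⟨R, hR, hq⟩ hne => by
        rcases hch.total hQ hR with h | h
        · exact (hc hR).2 p (h hp) q hq hne
        · exact (hc hQ).2 p hp q (h hq) hne⟩, fun s hs => subset_sUnion_of_mem hs⟩
    exact ⟨P, hP⟩
  have hscale : ∀ x : X, x ≠ 0 → ‖(‖x‖⁻¹ • x)‖ = 1 := fun x hx => by
    rw [norm_smul, norm_inv, norm_norm, inv_mul_cancel₀ (norm_ne_zero_iff.2 hx)]
  have hPinf : P.Infinite := by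
    intro hfin
    have : FiniteDimensional ℝ (vspan v₀ P) :=
      FiniteDimensional.span_of_finite ℝ ((hfin.image _).insert v₀)
    obtain ⟨N, -, hNfin, hN⟩ :=
      (isCompact_sphere (0 : vspan v₀ P) 1).finite_cover_balls (show (0 : ℝ) < 1 / 4 by norm_num)
    choose ρ hρ hρle using fun s : vspan v₀ P => exists_norming (s : X)
    have : Finite N := hNfin.to_subtype
    have : Finite P := hfin.to_subtype
    let J : X →ₗ[ℝ] ℝ × (P → ℝ) × (N → ℝ) :=
      φ₀.toLinearMap.prod ((LinearMap.pi fun p : P => p.1.1.toLinearMap).prod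
        (LinearMap.pi fun s : N => (ρ s.1).toLinearMap))
    obtain ⟨x, hx, hJ⟩ : ∃ x, x ≠ 0 ∧ J x = 0 := by
      by_contra hcon
      push Not at hcon
      refine hinf (FiniteDimensional.of_injective J ((injective_iff_map_eq_zero J).2 fun x hx => ?_))
      by_contra h
      exact hcon x h hx
    have h0 : φ₀ x = 0 := congrArg Prod.fst hJ
    have h1 : ∀ p : P, p.1.1 x = 0 := fun p => congrFun (congrArg (fun a => a.2.1) hJ) p
    have h2 : ∀ s : N, ρ s.1 x = 0 := fun s => congrFun (congrArg (fun a => a.2.2) hJ) s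
    refine not_maximal hP (hscale x hx) (by rw [map_smul, h0, smul_zero])
      (fun p hp => by rw [map_smul, h1 ⟨p, hp⟩, smul_zero]) fun s hs => ?_
    rcases eq_or_ne s 0 with rfl | hs0
    · rw [norm_zero]; positivity
    let s' : vspan v₀ P := ⟨‖s‖⁻¹ • s, Submodule.smul_mem _ _ hs⟩
    have hs' : s' ∈ sphere (0 : vspan v₀ P) 1 := by
      rw [mem_sphere_zero_iff_norm]; exact hscale s hs0
    obtain ⟨t, ht, hts⟩ : ∃ t ∈ N, s' ∈ ball t (1 / 4) := by simpa using hN hs'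
    rw [mem_ball, dist_eq_norm] at hts
    have hts' : ‖(‖s‖⁻¹ • s) - (t : X)‖ < 1 / 4 := hts
    have k1 := hρle t ((t : X) - ‖s‖⁻¹ • s)
    rw [map_sub, hρ, norm_sub_rev] at k1
    have k2 := norm_sub_norm_le (‖s‖⁻¹ • s) (t : X)
    rw [hscale s hs0] at k2
    have k3 : ρ t (‖s‖⁻¹ • s) = ‖s‖⁻¹ * ρ t s := by simp
    have k4 : (1 : ℝ) / 2 ≤ ‖s‖⁻¹ * ρ t s := by linarith
    rw [inv_mul_eq_div, le_div_iff₀ (norm_pos_iff.2 hs0)] at k4
    have k5 := hρle t (s + ‖x‖⁻¹ • x)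
    rw [map_add, map_smul, h2 ⟨t, ht⟩, smul_zero, add_zero] at k5
    linarith
  have : Infinite P := hPinf.to_subtype
  have hcard : Cardinal.mk P = Cardinal.mk (List (ℚ × Option P)) := by
    rw [Cardinal.mk_list_eq_mk, Cardinal.mk_prod, Cardinal.mk_option]
    simp
  obtain ⟨σ⟩ := Cardinal.eq.1 hcard
  let gen : Option P → X := fun o => o.elim v₀ fun p => p.1.2
  let comb : List (ℚ × Option P) → X := fun l => (l.map fun a => (a.1 : ℝ) • gen a.2).sum
  choose ρ hρ hρle using fun l => exists_norming (comb l)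
  refine ⟨φ₀, v₀, P, fun p => ρ (σ p), fun x => abs_le'.2 ⟨hφ₀le x, by simpa using hφ₀le (-x)⟩,
    hv₀, hφ₀, hPinf.nonempty, hP.1, fun x h0 h1 h2 => ?_⟩
  by_contra hx
  refine not_maximal hP (hscale x hx) (by rw [map_smul, h0, smul_zero])
    (fun p hp => by rw [map_smul, h1 ⟨p, hp⟩, smul_zero]) ?_
  set w := ‖x‖⁻¹ • x with hw
  have hcomb : ∀ l, ‖comb l‖ ≤ 2 * ‖comb l + w‖ := fun l => by
    obtain ⟨p, rfl⟩ := σ.surjective l
    have := hρle (σ p) (comb (σ p) + w)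
    rw [map_add, hρ, hw, map_smul, h2 p, smul_zero, add_zero] at this
    linarith [norm_nonneg (comb (σ p) + w)]
  intro s hs
  obtain ⟨n, c, g, rfl⟩ := Submodule.mem_span_set'.1 hs
  have hgen : ∀ i, ∃ o, gen o = (g i : X) := fun i => by
    rcases (g i).2 with h | ⟨p, hp, h⟩
    · exact ⟨none, h.symm⟩
    · exact ⟨some ⟨p, hp⟩, h⟩
  choose o ho using hgen
  refine (DenseRange.piMap fun _ : Fin n => Rat.denseRange_cast (𝕜 := ℝ)).induction_on
    (p := fun c : Fin n → ℝ => ‖∑ i, c i • (g i : X)‖ ≤ 2 * ‖∑ i, c i • (g i : X) + w‖) c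
    (isClosed_le (by fun_prop) (by fun_prop)) fun q => ?_
  have e : ∑ i, ((q i : ℝ)) • (g i : X) = comb (List.ofFn fun i => (q i, o i)) := by
    simp [comb, List.map_ofFn, List.sum_ofFn, ho]
  simp only [Pi.map_apply]
  rw [e]
  exact hcomb _

/-- Signs. -/
def sg (b : Bool) : ℝ := if b then 1 else -1

theorem abs_sg (b : Bool) : |sg b| = 1 := by cases b <;> simp [sg]

/-- The tilting functional attached to a pair of a system. -/
theorem exists_tilt {φ₀ ψ L : StrongDual ℝ X} {v₀ w : X} (hφv : φ₀ v₀ = 1) (hψw : ψ w = 1)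
    (hψv : ψ v₀ = 0) (hφw : φ₀ w = 0) :
    ∃ (θ : StrongDual ℝ X) (u : X), ‖θ‖ ≤ 1 ∧ ‖u‖ ≤ 1 ∧ θ v₀ = 0 ∧ θ w = 0 ∧
      (θ = 0 ∨ 1 / 2 ≤ θ u) ∧ 0 ≤ θ u ∧
      ∀ x, φ₀ x = 0 → ψ x = 0 → θ x = 0 → L x = 0 := by
  set η : StrongDual ℝ X := L - L v₀ • φ₀ - L w • ψ with hη
  have e1 : η v₀ = 0 := by simp [hη, hφv, hψv]
  have e2 : η w = 0 := by simp [hη, hφw, hψw]
  have key : ∀ x, φ₀ x = 0 → ψ x = 0 → η x = 0 → L x = 0 := fun x a b c => by
    simpa [hη, a, b] using c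
  rcases eq_or_ne η 0 with h | h
  · exact ⟨0, 0, by simp, by simp, rfl, rfl, Or.inl rfl, by simp,
      fun x a b _ => key x a b (by rw [h]; rfl)⟩
  have hn : 0 < ‖η‖ := norm_pos_iff.2 h
  obtain ⟨u, hu, hu'⟩ : ∃ u : X, ‖u‖ ≤ 1 ∧ ‖η‖ / 2 ≤ η u := by
    by_contra hcon
    push Not at hcon
    have : ‖η‖ ≤ ‖η‖ / 2 := by
      refine η.opNorm_le_bound (by positivity) fun x => ?_
      rcases eq_or_ne x 0 with rfl | hx
      · simp
      have hxp : 0 < ‖x‖ := norm_pos_iff.2 hx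
      have hn1 : ‖(‖x‖⁻¹ • x)‖ = 1 := by
        rw [norm_smul, norm_inv, norm_norm, inv_mul_cancel₀ hxp.ne']
      have a1 := hcon _ hn1.le
      have a2 := hcon (-(‖x‖⁻¹ • x)) (by rw [norm_neg, hn1])
      rw [map_neg, map_smul, smul_eq_mul, inv_mul_eq_div] at a2
      rw [map_smul, smul_eq_mul, inv_mul_eq_div, div_lt_iff₀ hxp] at a1
      rw [neg_lt, lt_div_iff₀ hxp] at a2
      rw [Real.norm_eq_abs, abs_le]
      constructor <;> linarith
    linarith
  have happ : ∀ x, (‖η‖⁻¹ • η) x = η x / ‖η‖ := fun x => by simp [inv_mul_eq_div]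
  have hhalf : 1 / 2 ≤ (‖η‖⁻¹ • η) u := by
    rw [happ, le_div_iff₀ hn]; linarith
  refine ⟨‖η‖⁻¹ • η, u, ?_, hu, by rw [happ, e1, zero_div], by rw [happ, e2, zero_div],
    Or.inr hhalf, by linarith, fun x a b c => key x a b ?_⟩
  · rw [norm_smul, norm_inv, norm_norm, inv_mul_cancel₀ hn.ne']
  · rw [happ, div_eq_zero_iff] at c
    exact c.resolve_right hn.ne'

/-- The tilts of the caps. -/
noncomputable def tilt {P : Set (StrongDual ℝ X × X)} (θ : P → StrongDual ℝ X)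
    (m : P × Bool × Bool) : StrongDual ℝ X :=
  sg m.2.1 • (m.1.1.1 + (sg m.2.2 / 20) • θ m.1)

theorem tilt_apply {P : Set (StrongDual ℝ X × X)} (θ : P → StrongDual ℝ X)
    (m : P × Bool × Bool) (x : X) :
    tilt θ m x = sg m.2.1 * (m.1.1.1 x + sg m.2.2 / 20 * θ m.1 x) := by
  simp [tilt, mul_add]

/-- At the point of its cap each tilt exceeds every other one by a fixed margin. -/
theorem tilt_margin {φ₀ : StrongDual ℝ X} {v₀ : X} {P : Set (StrongDual ℝ X × X)}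
    (hP : Biorth φ₀ v₀ P) (θ : P → StrongDual ℝ X) (u : P → X) (hθ : ∀ p, ‖θ p‖ ≤ 1)
    (hu : ∀ p, ‖u p‖ ≤ 1) (hθw : ∀ p : P, θ p p.1.2 = 0)
    (hθu : ∀ p, θ p = 0 ∨ 1 / 2 ≤ θ p (u p)) (hθnn : ∀ p, 0 ≤ θ p (u p))
    (p : P) (a b : Bool) :
    ∀ y, y = sg a • (p.1.2 + (sg b / 20) • u p) → ‖y‖ ≤ 2 ∧
      4 / 5 ≤ tilt θ (p, a, b) y ∧
      ∀ m, tilt θ m = tilt θ (p, a, b) ∨ tilt θ m y ≤ tilt θ (p, a, b) y - 1 / 400 := by
  intro y hy
  obtain ⟨hP1, hP2⟩ := hP
  have hy2 : ‖y‖ ≤ 2 := by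
    rw [hy, norm_smul, Real.norm_eq_abs, abs_sg, one_mul]
    refine (norm_add_le _ _).trans ?_
    rw [norm_smul, Real.norm_eq_abs, abs_div, abs_sg,
      abs_of_pos (by norm_num : (0 : ℝ) < 20)]
    have := (hP1 p.1 p.2).2.1
    have := hu p
    linarith
  have hu4 : ∀ q : P, |q.1.1 (u p)| ≤ 4 := fun q => by
    have h := (q.1.1.le_opNorm (u p)).trans
      (mul_le_mul (hP1 q.1 q.2).1 (hu p) (norm_nonneg _) (by norm_num))
    rw [Real.norm_eq_abs] at h
    linarith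
  have hval : ∀ m : P × Bool × Bool, tilt θ m y = sg m.2.1 * sg a *
      (m.1.1.1 p.1.2 + sg b / 20 * m.1.1.1 (u p) +
        sg m.2.2 / 20 * (θ m.1 p.1.2 + sg b / 20 * θ m.1 (u p))) := fun m => by
    rw [tilt_apply, hy]
    simp only [map_smul, map_add, smul_eq_mul]
    ring
  have hself : tilt θ (p, a, b) y = 1 + sg b / 20 * p.1.1 (u p) + θ p (u p) / 400 := by
    rw [hval, hθw p, (hP1 p.1 p.2).2.2.1]
    cases a <;> cases b <;> simp only [sg, Bool.false_eq_true, if_true, if_false] <;> ring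
  have hu' := abs_le.1 (hu4 p)
  have h45 : 4 / 5 ≤ tilt θ (p, a, b) y := by
    rw [hself]
    have := hθnn p
    cases b <;> simp only [sg, Bool.false_eq_true, if_true, if_false] <;> linarith
  refine ⟨hy2, h45, ?_⟩
  rintro ⟨q, a', b'⟩
  by_cases hqp : q = p
  · subst hqp
    by_cases hab : a' = a
    · subst hab
      by_cases hbb : b' = b
      · subst hbb; exact Or.inl rfl
      rcases hθu q with h | h
      · left; simp [tilt, h]
      · right
        rw [hself, hval, hθw q, (hP1 q.1 q.2).2.2.1]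
        cases a' <;> cases b <;> cases b' <;>
          first
            | exact absurd rfl hbb
            | (simp only [sg, Bool.false_eq_true, if_true, if_false]; linarith)
    · right
      refine le_trans ?_ (sub_le_sub_right h45 _)
      rw [hval, hθw q, (hP1 q.1 q.2).2.2.1]
      have := hθnn q
      have h1 : θ q (u q) ≤ 1 := by
        have h := ((θ q).le_opNorm (u q)).trans
          (mul_le_one₀ (hθ q) (norm_nonneg _) (hu q))
        exact (le_abs_self _).trans h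
      cases a' <;> cases a <;>
        first
          | exact absurd rfl hab
          | (cases b <;> cases b' <;> simp only [sg, Bool.false_eq_true, if_true, if_false] <;>
              linarith)
  · right
    refine le_trans ?_ (sub_le_sub_right h45 _)
    have h0 : q.1.1 p.1.2 = 0 := hP2 q.1 q.2 p.1 p.2 fun h => hqp (Subtype.ext h)
    have k2 : |θ q y| ≤ 2 := by
      have h := ((θ q).le_opNorm y).trans
        (mul_le_mul (hθ q) hy2 (norm_nonneg _) zero_le_one)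
      rw [Real.norm_eq_abs] at h
      linarith
    have k1 : |q.1.1 y| ≤ 4 / 20 := by
      rw [hy, map_smul, map_add, map_smul, h0, zero_add, smul_eq_mul, smul_eq_mul, abs_mul,
        abs_sg, one_mul, abs_mul, abs_div, abs_sg, abs_of_pos (by norm_num : (0 : ℝ) < 20)]
      have := hu4 q
      linarith
    rw [tilt_apply]
    rw [abs_le] at k1 k2
    cases a' <;> cases b' <;> simp only [sg, Bool.false_eq_true, if_true, if_false] <;> linarith

/-- A cap perturbed by a tilt keeps a uniform margin over the others. -/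
theorem cap_open {ι : Type*} {φ₀ : StrongDual ℝ X} {v₀ : X} (D : ι → StrongDual ℝ X)
    {δ : ℝ} (hδ : 0 < δ) (hδ1 : δ ≤ 1) (hφ : ∀ x, |φ₀ x| ≤ ‖x‖) (hv₀ : ‖v₀‖ = 1) (hφv₀ : φ₀ v₀ = 1)
    (hD : ∀ m x, |D m x| ≤ 5 * ‖x‖) (hDv₀ : ∀ m, D m v₀ = 0) (n : ι) {y : X} (hy : ‖y‖ ≤ 2)
    (hself : 0 ≤ D n y) (hother : ∀ m, D m = D n ∨ D m y ≤ D n y - 1 / 400)
    (χ : ι → StrongDual ℝ X) (hχ : ∀ m x, χ m x = (1 + δ) * (φ₀ x + δ / 8 * D m x))
    (hbound : ∀ m x, |χ m x| ≤ (1 + δ) ^ 2 * ‖x‖) :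
    ∃ v : X, ∀ᶠ z in 𝓝 v, ‖z‖ ≤ χ n z ∧ ∀ m, |χ m z| ≤ χ n z := by
  set t : ℝ := δ / (8 * (2 + δ)) with ht
  have htp : 0 < t := by positivity
  have htd : 8 * (2 + δ) * t = δ := by rw [ht]; field_simp
  set v : X := v₀ + t • y with hv
  refine ⟨v, ?_⟩
  have hDv : ∀ m, D m v = t * D m y := fun m => by simp [hv, hDv₀]
  have hφv : 1 - 2 * t ≤ φ₀ v := by
    rw [hv, map_add, map_smul, hφv₀, smul_eq_mul]
    have := mul_le_mul_of_nonneg_left ((neg_le.1 (neg_le_abs _)).trans' (neg_le_neg ((hφ y).trans hy)))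
      htp.le
    linarith
  have hty : ‖v‖ ≤ 1 + 2 * t := by
    rw [hv]
    refine (norm_add_le _ _).trans ?_
    rw [hv₀, norm_smul, Real.norm_of_nonneg htp.le]
    have := mul_le_mul_of_nonneg_left hy htp.le
    linarith
  have hc : 0 < δ / 8 * t := by positivity
  have hval : ∀ m, χ m v = (1 + δ) * (φ₀ v + δ / 8 * (t * D m y)) := fun m => by rw [hχ, hDv]
  have hδt : δ * t ≤ δ / 8 := by
    have : t ≤ 1 / 8 := by rw [ht, div_le_iff₀ (by positivity)]; linarith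
    have := mul_le_mul_of_nonneg_left this hδ.le
    linarith
  have hδt' : δ / 8 * t * 10 + 2 * t ≤ 1 := by
    have : t ≤ 1 / 8 := by rw [ht, div_le_iff₀ (by positivity)]; linarith
    linarith
  have hposv : ∀ m, 0 ≤ χ m v := by
    intro m
    rw [hval]
    refine mul_nonneg (by linarith) ?_
    have h1 := mul_le_mul_of_nonneg_left
      (show -10 ≤ D m y by have := (abs_le.1 (hD m y)).1; linarith) hc.le
    linarith
  have hnorm : ‖v‖ < χ n v := by
    rw [hval]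
    have h1 : 0 ≤ δ / 8 * (t * D n y) := by positivity
    have h2 : (1 + δ) * (1 - 2 * t) ≤ (1 + δ) * (φ₀ v + δ / 8 * (t * D n y)) :=
      mul_le_mul_of_nonneg_left (by linarith) (by linarith)
    linarith
  set gap : ℝ := (1 + δ) * (δ / 8 * t) / 400 with hgap
  have hgap0 : 0 < gap := by positivity
  have t1 : ∀ᶠ z in 𝓝 v, (1 + δ) ^ 2 * ‖z - v‖ < gap / 3 := by
    have hc : Continuous fun z : X => (1 + δ) ^ 2 * ‖z - v‖ := by fun_prop
    exact (hc.tendsto v).eventually_lt_const (by simp; linarith)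
  filter_upwards [t1,
    (continuous_norm.tendsto v).eventually_lt ((χ n).continuous.tendsto v) hnorm] with z hz hz'
  refine ⟨hz'.le, fun m => ?_⟩
  rcases hother m with h | h
  · have : χ m z = χ n z := by rw [hχ, hχ, h]
    rw [this, abs_of_nonneg ((norm_nonneg z).trans hz'.le)]
  · have h1 : χ m v ≤ χ n v - gap := by
      rw [hval, hval, hgap]
      have := mul_le_mul_of_nonneg_left h (mul_pos (show (0 : ℝ) < 1 + δ by linarith) hc).le
      linarith
    have h4 := abs_sub_abs_le_abs_sub (χ m z) (χ m v)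
    rw [abs_of_nonneg (hposv m), ← map_sub] at h4
    have := h4.trans (hbound m (z - v))
    have h5 := (abs_le.1 (hbound n (z - v))).1
    rw [map_sub] at h5
    linarith

/-- Functionals for the caps, with the points where each dominates. -/
theorem exists_dense_caps (hinf : ¬ FiniteDimensional ℝ X) {δ : ℝ} (hδ : 0 < δ) (hδ1 : δ ≤ 1) :
    ∃ (ι : Type u) (χ : ι → StrongDual ℝ X), (∀ n x, |χ n x| ≤ (1 + δ) ^ 2 * ‖x‖) ∧
      ∀ x, x ≠ 0 → ∃ n, χ n x ≠ 0 ∧ ∃ v : X, ∀ᶠ u in 𝓝 v,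
        ‖u‖ ≤ χ n u ∧ ∀ m, |χ m u| ≤ χ n u := by
  obtain ⟨φ₀, v₀, P, T, hφ₀, hv₀, hφv₀, hne, hP, hsep⟩ := exists_system (X := X) hinf
  choose θ u hθ hu hθv hθw hθu hθnn hθT using fun p : P =>
    exists_tilt (L := T p) hφv₀ (hP.1 p.1 p.2).2.2.1 (hP.1 p.1 p.2).2.2.2.1
      (hP.1 p.1 p.2).2.2.2.2
  let D : P × Bool × Bool → StrongDual ℝ X := tilt θ
  let χ : P × Bool × Bool → StrongDual ℝ X := fun m => (1 + δ) • (φ₀ + (δ / 8) • D m)
  have hD : ∀ m x, |D m x| ≤ 5 * ‖x‖ := by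
    intro m x
    rw [tilt_apply, abs_mul, abs_sg, one_mul]
    refine (abs_add_le _ _).trans ?_
    rw [abs_mul, abs_div, abs_sg, abs_of_pos (by norm_num : (0 : ℝ) < 20)]
    have a1 := (m.1.1.1.le_opNorm x).trans
      (mul_le_mul_of_nonneg_right (hP.1 _ m.1.2).1 (norm_nonneg x))
    have a2 := ((θ m.1).le_opNorm x).trans (mul_le_of_le_one_left (norm_nonneg x) (hθ _))
    rw [Real.norm_eq_abs] at a1 a2
    have := norm_nonneg x
    linarith
  have hDv₀ : ∀ m, D m v₀ = 0 := fun m => by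
    rw [tilt_apply, (hP.1 _ m.1.2).2.2.2.1, hθv]
    ring
  have happ : ∀ m x, χ m x = (1 + δ) * (φ₀ x + δ / 8 * D m x) := fun m x => by
    simp [χ, mul_add]
  have hbound : ∀ m x, |χ m x| ≤ (1 + δ) ^ 2 * ‖x‖ := by
    intro m x
    rw [happ, abs_mul, abs_of_pos (by linarith : (0 : ℝ) < 1 + δ), sq, mul_assoc]
    refine mul_le_mul_of_nonneg_left ?_ (by linarith)
    refine (abs_add_le _ _).trans ?_
    rw [abs_mul, abs_of_pos (by positivity : 0 < δ / 8)]
    have := hφ₀ x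
    have := mul_le_mul_of_nonneg_left (hD m x) (by positivity : 0 ≤ δ / 8)
    have := mul_nonneg hδ.le (norm_nonneg x)
    linarith
  refine ⟨P × Bool × Bool, χ, hbound, fun x hx => ?_⟩
  obtain ⟨n, hn⟩ : ∃ n, χ n x ≠ 0 := by
    by_contra hall
    push Not at hall
    apply hx
    have h : ∀ p a b,
        φ₀ x + δ / 8 * (sg a * (p.1.1 x + sg b / 20 * θ p x)) = 0 := fun p a b => by
      have := hall (p, a, b)
      rw [happ, tilt_apply] at this
      exact (mul_eq_zero.1 this).resolve_left (by linarith)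
    have hval : ∀ p : P, φ₀ x = 0 ∧ p.1.1 x = 0 ∧ θ p x = 0 := fun p => by
      have a1 := h p true true
      have a2 := h p true false
      have a3 := h p false true
      simp only [sg, Bool.false_eq_true, if_true, if_false] at a1 a2 a3
      have b0 : φ₀ x = 0 := by linarith
      have b1 : δ / 8 * θ p x = 0 := by linarith
      have b2 : δ / 8 * p.1.1 x = 0 := by linarith
      exact ⟨b0, (mul_eq_zero.1 b2).resolve_left (by positivity),
        (mul_eq_zero.1 b1).resolve_left (by positivity)⟩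
    obtain ⟨p₀, hp₀⟩ := hne
    exact hsep x (hval ⟨p₀, hp₀⟩).1 (fun p => (hval p).2.1)
      fun p => hθT p x (hval p).1 (hval p).2.1 (hval p).2.2
  obtain ⟨hy, hself, hother⟩ := tilt_margin hP θ u hθ hu hθw hθu hθnn n.1 n.2.1 n.2.2 _ rfl
  exact ⟨n, hn, cap_open D hδ hδ1 hφ₀ hv₀ hφv₀ hD hDv₀ n hy (le_trans (by norm_num) hself) hother
    χ happ hbound⟩

/-- Cutting caps with separating functionals gives a nearby norm with the property. -/
theorem mup_of_caps {ι : Type u} (χ : ι → StrongDual ℝ X) {C : ℝ} (hC : 1 ≤ C)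
    (hχ : ∀ n x, |χ n x| ≤ C * ‖x‖)
    (hcap : ∀ x, x ≠ 0 → ∃ n, χ n x ≠ 0 ∧ ∃ v : X, ∀ᶠ u in 𝓝 v,
      ‖u‖ ≤ χ n u ∧ ∀ m, |χ m u| ≤ χ n u) :
    ∃ (X' : Type u) (_ : NormedAddCommGroup X') (_ : NormedSpace ℝ X') (e : X ≃L[ℝ] X'),
      (∀ x, ‖x‖ ≤ ‖e x‖ ∧ ‖e x‖ ≤ C * ‖x‖) ∧ MUP.{u, v} X' := by
  let : TopologicalSpace ι := ⊥
  have : DiscreteTopology ι := ⟨rfl⟩
  have hC0 : 0 ≤ C := by linarith
  let G : X →ₗ[ℝ] (ι →ᵇ ℝ) :=
    { toFun := fun x => BoundedContinuousFunction.ofNormedAddCommGroupDiscrete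
        (fun n => χ n x) (C * ‖x‖) fun n => by simpa [Real.norm_eq_abs] using hχ n x
      map_add' := fun a b => by ext n; simp
      map_smul' := fun c a => by ext n; simp }
  have hGx : ∀ x n, G x n = χ n x := fun x n => rfl
  have hGle : ∀ x, ‖G x‖ ≤ C * ‖x‖ := fun x => by
    refine BoundedContinuousFunction.norm_le (by positivity) |>.2 fun n => ?_
    simpa [hGx, Real.norm_eq_abs] using hχ n x
  let J : X →ₗ[ℝ] X × (ι →ᵇ ℝ) := LinearMap.id.prod G
  have hJinj : Function.Injective J := fun a b h => congrArg Prod.fst h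
  have hJn : ∀ x, ‖J x‖ = max ‖x‖ ‖G x‖ := fun x => rfl
  let e₀ : X ≃ₗ[ℝ] LinearMap.range J := LinearEquiv.ofInjective J hJinj
  have he : ∀ x, ‖e₀ x‖ = max ‖x‖ ‖G x‖ := fun x => by
    rw [← hJn]; rfl
  have h1 : ∀ x, ‖x‖ ≤ ‖e₀ x‖ ∧ ‖e₀ x‖ ≤ C * ‖x‖ := fun x => by
    rw [he]
    exact ⟨le_max_left _ _, max_le (le_mul_of_one_le_left (norm_nonneg x) hC) (hGle x)⟩
  have h2 : ∀ y, ‖e₀.symm y‖ ≤ 1 * ‖y‖ := fun y => by
    have h := (h1 (e₀.symm y)).1
    rw [e₀.apply_symm_apply] at h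
    exact h.trans_eq (one_mul ‖y‖).symm
  let e : X ≃L[ℝ] LinearMap.range J :=
    { e₀ with
      continuous_toFun :=
        AddMonoidHomClass.continuous_of_bound e₀.toLinearMap C fun x => (h1 x).2
      continuous_invFun :=
        AddMonoidHomClass.continuous_of_bound e₀.symm.toLinearMap 1 h2 }
  refine ⟨LinearMap.range J, inferInstance, inferInstance, e, fun x => h1 x,
    fun Y _ _ f hf hs => tingley_separatingLinear ?_ f hf hs⟩
  intro x hx
  have hx' : e.symm x ≠ 0 := fun h => hx (by simpa using congrArg e h)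
  obtain ⟨n, hn, v, hv⟩ := hcap _ hx'
  refine ⟨e v, (χ n).comp (e.symm : LinearMap.range J →L[ℝ] X), ?_, by simpa using hn⟩
  have ht : Tendsto (fun w : LinearMap.range J => e.symm w) (𝓝 (e v)) (𝓝 v) := by
    simpa using (e.symm.continuous.tendsto (e v))
  filter_upwards [ht.eventually hv] with w hw
  have hew : ‖w‖ = max ‖e.symm w‖ ‖G (e.symm w)‖ := by
    rw [← he]
    congr 1
    exact (e₀.apply_symm_apply w).symm
  rw [hew]
  have hpos : 0 ≤ χ n (e.symm w) := (norm_nonneg _).trans hw.1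
  refine le_antisymm (max_le hw.1 ?_) ?_
  · refine BoundedContinuousFunction.norm_le hpos |>.2 fun m => ?_
    simpa [hGx, Real.norm_eq_abs] using hw.2 m
  · refine le_max_of_le_right ?_
    have := (G (e.symm w)).norm_coe_le_norm n
    simp [hGx, Real.norm_eq_abs] at this
    exact (le_abs_self _).trans this

/-- Every normed space is arbitrarily close to one with the Mazur-Ulam property. -/
theorem exists_near_mup (X : Type u) [NormedAddCommGroup X] [NormedSpace ℝ X] (ε : ℝ)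
    (hε : 0 < ε) :
    ∃ (X' : Type u) (_ : NormedAddCommGroup X') (_ : NormedSpace ℝ X') (e : X ≃L[ℝ] X'),
      (∀ x, ‖x‖ ≤ ‖e x‖ ∧ ‖e x‖ ≤ (1 + ε) * ‖x‖) ∧ MUP.{u, v} X' := by
  by_cases hfin : FiniteDimensional ℝ X
  · refine ⟨X, _, _, ContinuousLinearEquiv.refl ℝ X, fun x => ⟨le_rfl, ?_⟩,
      fun Y _ _ f hf hs => Vale.Agent.P084.Fin.tingley f hf hs⟩
    simpa using le_mul_of_one_le_left (norm_nonneg x) (by linarith : 1 ≤ 1 + ε)
  set δ : ℝ := min 1 (ε / 3) with hδdef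
  have hδ : 0 < δ := lt_min one_pos (by linarith)
  have hδ1 : δ ≤ 1 := min_le_left _ _
  have hδ3 : δ ≤ ε / 3 := min_le_right _ _
  have hsq : (1 + δ) ^ 2 ≤ 1 + ε := by
    have := mul_le_mul_of_nonneg_left hδ1 hδ.le
    rw [sq]
    linarith
  obtain ⟨ι, χ, hχ, hcap⟩ := exists_dense_caps (X := X) hfin hδ hδ1
  exact mup_of_caps χ (by linarith : (1 : ℝ) ≤ 1 + ε)
    (fun n x => (hχ n x).trans (mul_le_mul_of_nonneg_right hsq (norm_nonneg x))) hcap

end Vale.Agent.P084.LL
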