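import Vale.Agent.P084.LL.Main

/-! The linear extension, and spaces with a countable boundary. -/

namespace Vale.Agent.P084.LL

set_option linter.unusedSectionVars false

open Metric Set Filter Topology

variable {E F : Type*} [NormedAddCommGroup E] [NormedSpace ℝ E]
  [NormedAddCommGroup F] [NormedSpace ℝ F]

open Classical in
/-- The positively homogeneous extension of a map of spheres. -/
noncomputable def hom (f : sphere (0 : E) 1 ≃ᵢ sphere (0 : F) 1) (x : E) : F :=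
  if hx : x = 0 then 0 else ‖x‖ • (f ⟨‖x‖⁻¹ • x, mem_sphere_zero_iff_norm.2 (by
    rw [norm_smul, norm_inv, norm_norm, inv_mul_cancel₀ (norm_ne_zero_iff.2 hx)])⟩ : F)

theorem norm_hom (f : sphere (0 : E) 1 ≃ᵢ sphere (0 : F) 1) (x : E) : ‖hom f x‖ = ‖x‖ := by
  rw [hom]
  split_ifs with hx
  · simp [hx]
  · simp [norm_smul]

theorem hom_coe (f : sphere (0 : E) 1 ≃ᵢ sphere (0 : F) 1) (x : sphere (0 : E) 1) :
    hom f (x : E) = f x := by
  rw [hom, dif_neg (ne_zero_of_mem_unit_sphere x)]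
  simp

theorem apply_hom {f : sphere (0 : E) 1 ≃ᵢ sphere (0 : F) 1} {χ : StrongDual ℝ E}
    {χ' : StrongDual ℝ F} (h : ∀ x : sphere (0 : E) 1, χ' (f x : F) = χ (x : E)) (x : E) :
    χ' (hom f x) = χ x := by
  rw [hom]
  split_ifs with hx
  · simp [hx]
  · rw [map_smul, h]
    simp [mul_inv_cancel_left₀ (norm_ne_zero_iff.2 hx)]

/-- The transported functionals separate the points of the target. -/
theorem eq_of_pairs (hE : SeparatingLinear E) (f : sphere (0 : E) 1 ≃ᵢ sphere (0 : F) 1) {a b : F}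
    (h : ∀ (χ : StrongDual ℝ E) (χ' : StrongDual ℝ F),
      (∀ x : sphere (0 : E) 1, χ' (f x : F) = χ (x : E)) → χ' a = χ' b) : a = b := by
  by_contra hne
  have hp : 0 < ‖a - b‖ := norm_pos_iff.2 (sub_ne_zero.2 hne)
  have hn : ‖‖a - b‖⁻¹ • (a - b)‖ = 1 := by
    rw [norm_smul, norm_inv, norm_norm, inv_mul_cancel₀ hp.ne']
  set W : sphere (0 : F) 1 := ⟨_, mem_sphere_zero_iff_norm.2 hn⟩ with hW
  obtain ⟨v, χ, hv, hχw⟩ := hE (f.symm W : E) (ne_zero_of_mem_unit_sphere _)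
  have : Nontrivial E := ⟨(f.symm W : E), 0, ne_zero_of_mem_unit_sphere _⟩
  have hvp : 0 < ‖v‖ := norm_pos_iff.2 hv.ne_zero
  have hzn : ‖‖v‖⁻¹ • v‖ = 1 := by
    rw [norm_smul, norm_inv, norm_norm, inv_mul_cancel₀ hvp.ne']
  obtain ⟨χ', -, heq⟩ :=
    pull_functional f (z := ⟨_, mem_sphere_zero_iff_norm.2 hzn⟩) (hv.smul (inv_pos.2 hvp))
  have h0 := h χ χ' heq
  have hWz : χ' (W : F) = 0 := by simp [hW, map_sub, h0]
  rw [← heq, f.apply_symm_apply] at hχw
  exact hχw hWz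

/-- A sphere isometry of a space with separating linearity functionals extends linearly. -/
theorem tingley_separatingLinear (hE : SeparatingLinear E)
    (f : sphere (0 : E) 1 → sphere (0 : F) 1) (hf : Isometry f) (hs : Function.Surjective f) :
    ∃ T : E ≃ₗᵢ[ℝ] F, ∀ x : sphere (0 : E) 1, T (x : E) = (f x : F) := by
  let e : sphere (0 : E) 1 ≃ᵢ sphere (0 : F) 1 :=
    ⟨Equiv.ofBijective f ⟨hf.injective, hs⟩, hf⟩
  let L : E →ₗ[ℝ] F :=
    { toFun := hom e
      map_add' := fun a b => eq_of_pairs hE e fun χ χ' h => by simp [apply_hom h]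
      map_smul' := fun c a => eq_of_pairs hE e fun χ χ' h => by simp [apply_hom h] }
  let L' : E →ₗᵢ[ℝ] F := ⟨L, norm_hom e⟩
  have hsurj : Function.Surjective L' := by
    intro y
    by_cases hy : y = 0
    · exact ⟨0, by rw [hy, map_zero]⟩
    · have hn : ‖‖y‖⁻¹ • y‖ = 1 := by
        rw [norm_smul, norm_inv, norm_norm, inv_mul_cancel₀ (norm_ne_zero_iff.2 hy)]
      refine ⟨‖y‖ • (e.symm ⟨_, mem_sphere_zero_iff_norm.2 hn⟩ : E), ?_⟩
      rw [map_smul, show L' (e.symm ⟨_, mem_sphere_zero_iff_norm.2 hn⟩ : E) =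
        hom e (e.symm ⟨_, mem_sphere_zero_iff_norm.2 hn⟩ : E) from rfl, hom_coe,
        e.apply_symm_apply]
      exact smul_inv_smul₀ (norm_ne_zero_iff.2 hy) y
  refine ⟨LinearIsometryEquiv.ofSurjective L' hsurj, fun x => ?_⟩
  change hom e (x : E) = (f x : F)
  rw [hom_coe]
  rfl

/-- The norm is linear near a dense set of points. -/
def DenselyLinear (E : Type*) [NormedAddCommGroup E] [NormedSpace ℝ E] : Prop :=
  Dense {v : E | ∃ χ : StrongDual ℝ E, Lin χ v}

theorem DenselyLinear.separating (h : DenselyLinear E) : SeparatingLinear E := by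
  intro x hx
  obtain ⟨v, hv, χ, hχ⟩ := Metric.dense_iff.1 h x (‖x‖ / 2) (by positivity)
  refine ⟨v, χ, hχ, fun h0 => ?_⟩
  have hd : ‖v - x‖ < ‖x‖ / 2 := by rwa [← dist_eq_norm]
  have h1 := hχ.apply_le (v - x)
  rw [map_sub, h0, sub_zero, ← hχ.eq_self] at h1
  have h2 := norm_sub_norm_le x v
  rw [norm_sub_rev] at h2
  linarith

/-- A Banach space with a countable boundary has densely linear norm. -/
theorem denselyLinear_of_countable_boundary [CompleteSpace E] {Φ : Set (StrongDual ℝ E)}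
    (hΦ : Φ.Countable) (hatt : ∀ x, ∃ φ ∈ Φ, φ x = ‖x‖) :
    DenselyLinear E := by
  have : Countable Φ := hΦ.to_subtype
  have hc : ∀ φ : Φ, IsClosed {x : E | (φ : StrongDual ℝ E) x = ‖x‖} := fun φ =>
    isClosed_eq (φ : StrongDual ℝ E).continuous continuous_norm
  have hU : ⋃ φ : Φ, {x : E | (φ : StrongDual ℝ E) x = ‖x‖} = univ :=
    eq_univ_of_forall fun x => by
      obtain ⟨φ, hφ, hx⟩ := hatt x
      exact mem_iUnion.2 ⟨⟨φ, hφ⟩, hx⟩
  refine (dense_iUnion_interior_of_closed hc hU).mono ?_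
  intro x hx
  obtain ⟨φ, hφ⟩ := mem_iUnion.1 hx
  exact ⟨(φ : StrongDual ℝ E),
    Filter.eventually_of_mem (mem_interior_iff_mem_nhds.1 hφ) fun w hw => hw.symm⟩

/-- An open set covered by finitely many pieces of linearity contains a point of linearity. -/
theorem exists_lin_of_finite (s : Finset (StrongDual ℝ E)) :
    ∀ V : Set E, IsOpen V → V.Nonempty → (∀ x ∈ V, ∃ φ ∈ s, φ x = ‖x‖) →
      ∃ v ∈ V, ∃ χ : StrongDual ℝ E, Lin χ v := by
  classical
  induction s using Finset.induction with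
  | empty =>
    intro V _ ⟨x, hx⟩ h
    obtain ⟨φ, hφ, -⟩ := h x hx
    simp at hφ
  | @insert φ t hφt ih =>
    intro V hV ⟨x, hx⟩ h
    by_cases hall : ∀ y ∈ V, φ y = ‖y‖
    · exact ⟨x, hx, φ, Filter.eventually_of_mem (hV.mem_nhds hx) fun w hw => (hall w hw).symm⟩
    · obtain ⟨y, hy, hy'⟩ : ∃ y ∈ V, φ y ≠ ‖y‖ := by simpa using hall
      obtain ⟨v, hv, hχ⟩ := ih (V ∩ {y | φ y ≠ ‖y‖})
        (hV.inter (isOpen_ne_fun φ.continuous continuous_norm)) ⟨y, hy, hy'⟩
        (fun z hz => by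
          obtain ⟨ψ, hψ, e⟩ := h z hz.1
          rcases Finset.mem_insert.1 hψ with rfl | hψ
          · exact absurd e hz.2
          · exact ⟨ψ, hψ, e⟩)
      exact ⟨v, hv.1, hχ⟩

/-- A norm that is locally a maximum of finitely many functionals is densely linear. -/
theorem denselyLinear_of_locally_finite [Nontrivial E]
    (h : ∀ x : E, x ≠ 0 → ∃ Φ : Set (StrongDual ℝ E), Φ.Finite ∧
      ∀ᶠ w in 𝓝 x, ∃ φ ∈ Φ, φ w = ‖w‖) :
    DenselyLinear E := by
  rw [DenselyLinear, dense_iff_inter_open]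
  intro V hV hne
  obtain ⟨x, hx, hx0⟩ : ∃ x ∈ V, x ≠ 0 := by
    have := (dense_compl_singleton (0 : E)).inter_open_nonempty V hV hne
    exact this
  obtain ⟨Φ, hΦ, hev⟩ := h x hx0
  obtain ⟨O, hO, hOo, hxO⟩ := _root_.eventually_nhds_iff.1 hev
  obtain ⟨v, hv, hχ⟩ := exists_lin_of_finite hΦ.toFinset (V ∩ O) (hV.inter hOo) ⟨x, hx, hxO⟩
    (fun z hz => by
      obtain ⟨φ, hφ, e⟩ := hO z hz.2
      exact ⟨φ, hΦ.mem_toFinset.2 hφ, e⟩)
  exact ⟨v, hv.1, hχ⟩

end Vale.Agent.P084.LL
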