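import Vale.Agent.P084.LL.Chord

/-! Sphere isometries carry points where the norm is locally linear to such points. -/

namespace Vale.Agent.P084.LL

open Metric Set Filter Topology

set_option linter.unusedSectionVars false

variable {E F : Type*} [NormedAddCommGroup E] [NormedSpace ℝ E]
  [NormedAddCommGroup F] [NormedSpace ℝ F]

theorem norm_coe (x : sphere (0 : E) 1) : ‖(x : E)‖ = 1 := norm_eq_of_mem_sphere x

theorem far_iff {χ : StrongDual ℝ E} {z y : E} (h : Lin χ z) (hz : ‖z‖ = 1) (hy : ‖y‖ = 1) :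
    ‖z - y‖ = 2 ↔ χ y = -1 := by
  constructor
  · intro h2
    have hy' : ‖-y‖ = 1 := by rw [norm_neg, hy]
    have h2' : ‖z + -y‖ = 2 := by rwa [← sub_eq_add_neg]
    have hc : Tendsto (fun t : ℝ => (1 : ℝ) • z + t • -y) (𝓝[>] 0) (𝓝 z) := by
      have : Continuous fun t : ℝ => (1 : ℝ) • z + t • -y := by fun_prop
      simpa using (this.tendsto 0).mono_left nhdsWithin_le_nhds
    obtain ⟨t, ht, ht0⟩ := ((hc.eventually h).and self_mem_nhdsWithin).exists
    have ht0' : (0 : ℝ) < t := ht0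
    rw [norm_combo hz hy' h2' zero_le_one ht0'.le, map_add, map_smul, map_smul, map_neg,
      ← h.eq_self, hz] at ht
    simp only [smul_eq_mul, one_mul, mul_neg] at ht
    nlinarith
  · intro hχ
    refine le_antisymm ((norm_sub_le _ _).trans (by linarith)) ?_
    have := h.apply_le (z - y)
    rw [map_sub, ← h.eq_self, hz, hχ] at this
    linarith

theorem add_eq_two_iff {χ : StrongDual ℝ E} {z y : E} (h : Lin χ z) (hz : ‖z‖ = 1)
    (hy : ‖y‖ = 1) : ‖z + y‖ = 2 ↔ χ y = 1 := by
  have := far_iff h hz (y := -y) (by rw [norm_neg, hy])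
  rw [sub_neg_eq_add, map_neg] at this
  rw [this]
  constructor <;> intro h' <;> linarith

theorem dist_f (f : sphere (0 : E) 1 ≃ᵢ sphere (0 : F) 1) (x y : sphere (0 : E) 1) :
    ‖(f x : F) - f y‖ = ‖(x : E) - y‖ := by
  have := f.isometry.dist_eq x y
  rwa [Subtype.dist_eq, Subtype.dist_eq, dist_eq_norm, dist_eq_norm] at this

theorem dist_symm_f (f : sphere (0 : E) 1 ≃ᵢ sphere (0 : F) 1) (X Z : sphere (0 : F) 1) :
    ‖(X : F) - Z‖ = ‖(f.symm X : E) - f.symm Z‖ := by
  have := dist_f f (f.symm X) (f.symm Z)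
  rwa [f.apply_symm_apply, f.apply_symm_apply] at this

theorem tendsto_normalize {W : F} (hW : ‖W‖ = 1) :
    Tendsto (fun w : F => ‖w‖⁻¹ • w) (𝓝 W) (𝓝 W) := by
  have hne : W ≠ 0 := by
    rintro rfl
    simp at hW
  have : ContinuousAt (fun w : F => ‖w‖⁻¹ • w) W :=
    (continuousAt_id.norm.inv₀ (by rw [id, hW]; norm_num)).smul continuousAt_id
  simpa [hW] using this.tendsto

/-- Neighbourhoods in the sphere, seen in the space. -/
theorem exists_nhd {W : sphere (0 : F) 1} {P : sphere (0 : F) 1 → Prop}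
    (h : ∀ᶠ V in 𝓝 W, P V) :
    ∀ᶠ w in 𝓝 (W : F), ∀ hw : ‖w‖ = 1, P ⟨w, mem_sphere_zero_iff_norm.2 hw⟩ := by
  rw [nhds_subtype_eq_comap, eventually_comap] at h
  filter_upwards [h] with w hw hw1
  exact hw _ rfl

/-- A point where the norm is linear goes to such a point. -/
theorem transport (f : sphere (0 : E) 1 ≃ᵢ sphere (0 : F) 1) {χ : StrongDual ℝ E}
    {z : sphere (0 : E) 1} (h : Lin χ (z : E)) : ∃ χ' : StrongDual ℝ F, Lin χ' (f z : F) := by
  obtain ⟨ψ, hψ, hψle⟩ := exists_norming (f z : F)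
  refine ⟨ψ, ?_⟩
  have hO : ∀ᶠ V in 𝓝 (f z), Lin χ (f.symm V : E) := by
    have hc : Continuous fun V => (f.symm V : E) := continuous_subtype_val.comp f.symm.continuous
    have := hc.tendsto (f z)
    rw [f.symm_apply_apply] at this
    exact this.eventually ((isOpen_lin χ).mem_nhds h)
  have hO' := exists_nhd hO
  have hfz : ‖(f z : F)‖ = 1 := norm_coe _
  have t1 := tendsto_normalize hfz
  have t2 : Tendsto (fun w : F => (2 : ℝ) • (f z : F) - w) (𝓝 (f z : F)) (𝓝 (f z : F)) := by
    have : Continuous fun w : F => (2 : ℝ) • (f z : F) - w := by fun_prop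
    simpa [two_smul] using this.tendsto (f z : F)
  have hne : (f z : F) ≠ 0 := by
    intro h0
    rw [h0, norm_zero] at hfz
    exact zero_ne_one hfz
  filter_upwards [t1.eventually hO', (t1.comp t2).eventually hO', eventually_ne_nhds hne,
    t2.eventually_ne hne] with w ha hb hw hu
  set u : F := (2 : ℝ) • (f z : F) - w with hudef
  have hwp : 0 < ‖w‖ := norm_pos_iff.2 hw
  have hup : 0 < ‖u‖ := norm_pos_iff.2 hu
  have na : ‖‖w‖⁻¹ • w‖ = 1 := by
    rw [norm_smul, norm_inv, norm_norm, inv_mul_cancel₀ hwp.ne']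
  have nb : ‖‖u‖⁻¹ • u‖ = 1 := by
    rw [norm_smul, norm_inv, norm_norm, inv_mul_cancel₀ hup.ne']
  set a : sphere (0 : F) 1 := ⟨‖w‖⁻¹ • w, mem_sphere_zero_iff_norm.2 na⟩
  set b : sphere (0 : F) 1 := ⟨‖u‖⁻¹ • u, mem_sphere_zero_iff_norm.2 nb⟩
  have la : Lin χ (f.symm a : E) := ha na
  have lb : Lin χ (f.symm b : E) := hb nb
  have hbb : ‖(f.symm b : E) - f.symm (-b)‖ = 2 := by
    rw [← dist_symm_f, coe_neg_sphere, sub_neg_eq_add, ← two_smul ℝ (b : F), norm_smul,
      norm_coe]
    norm_num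
  have hy := (far_iff lb (norm_coe _) (norm_coe _)).1 hbb
  have hab := (far_iff la (norm_coe _) (norm_coe _)).2 hy
  rw [← dist_symm_f, coe_neg_sphere, sub_neg_eq_add] at hab
  have hsum := norm_combo (norm_coe a) (norm_coe b) hab hwp.le hup.le
  have ea : ‖w‖ • (a : F) = w := smul_inv_smul₀ hwp.ne' w
  have eb : ‖u‖ • (b : F) = u := smul_inv_smul₀ hup.ne' u
  rw [ea, eb, hudef, add_sub_cancel, norm_smul, hfz, Real.norm_of_nonneg zero_le_two] at hsum
  have l1 := hψle w
  have l2 := hψle u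
  have l3 : ψ w + ψ u = 2 := by
    rw [← map_add, hudef, add_sub_cancel, map_smul, hψ, hfz]
    norm_num
  rw [hudef] at l2 l3
  linarith

/-- The functional at the image of a point, and at the image of its antipode. -/
theorem facet_pair (f : sphere (0 : E) 1 ≃ᵢ sphere (0 : F) 1) {χ : StrongDual ℝ E}
    {z : sphere (0 : E) 1} (h : Lin χ (z : E)) :
    ∃ χ' : StrongDual ℝ F, Lin χ' (f z : F) ∧ Lin (-χ') (f (-z) : F) ∧
      ∀ y : sphere (0 : E) 1, χ (y : E) = 1 ↔ χ' (f y : F) = 1 := by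
  obtain ⟨χ', hχ'⟩ := transport f h
  have hneg : Lin (-χ) ((-z : sphere (0 : E) 1) : E) := by
    rw [coe_neg_sphere]; exact h.neg
  have hminus : ∀ y : sphere (0 : E) 1, χ (y : E) = -1 → χ' (f y : F) = -1 := fun y hy => by
    apply (far_iff hχ' (norm_coe _) (norm_coe _)).1
    rw [dist_f]
    exact (far_iff h (norm_coe _) (norm_coe _)).2 hy
  have hχ'' : Lin (-χ') (f (-z) : F) := by
    have hO : ∀ᶠ V in 𝓝 (f (-z)), Lin (-χ) (f.symm V : E) := by
      have hc : Continuous fun V => (f.symm V : E) :=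
        continuous_subtype_val.comp f.symm.continuous
      have := hc.tendsto (f (-z))
      rw [f.symm_apply_apply] at this
      exact this.eventually ((isOpen_lin _).mem_nhds hneg)
    have hfz : ‖(f (-z) : F)‖ = 1 := norm_coe _
    have hne : (f (-z) : F) ≠ 0 := by
      intro h0
      rw [h0, norm_zero] at hfz
      exact zero_ne_one hfz
    filter_upwards [(tendsto_normalize hfz).eventually (exists_nhd hO), eventually_ne_nhds hne]
      with w hw hw0
    have hwp : 0 < ‖w‖ := norm_pos_iff.2 hw0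
    have na : ‖‖w‖⁻¹ • w‖ = 1 := by
      rw [norm_smul, norm_inv, norm_norm, inv_mul_cancel₀ hwp.ne']
    have l := hw na
    have h1 := l.eq_self
    rw [norm_coe] at h1
    have h2 := hminus _ (show χ (f.symm ⟨_, mem_sphere_zero_iff_norm.2 na⟩ : E) = -1 by
      simp at h1; linarith)
    rw [f.apply_symm_apply] at h2
    simp only [map_smul, smul_eq_mul] at h2
    field_simp at h2
    simp
    linarith
  refine ⟨χ', hχ', hχ'', fun y => ?_⟩
  have h1 := far_iff hneg (norm_coe _) (norm_coe y)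
  have h2 := far_iff hχ'' (norm_coe _) (norm_coe (f y))
  rw [dist_f, h1] at h2
  simpa using h2

/-- Sums of norm two are preserved: two points of a common segment in the sphere go to two such
points. -/
theorem add_two_preserved (f : sphere (0 : E) 1 ≃ᵢ sphere (0 : F) 1) {a b : sphere (0 : E) 1}
    (h : ‖(a : E) + b‖ = 2) : ‖(f a : F) + f b‖ = 2 := by
  have step : ∀ c : sphere (0 : E) 1, ∀ t : ℝ, 0 < t → t ≤ 1 →
      (c : E) = (1 - t) • (b : E) + t • (a : E) → ‖(f a : F) + f c‖ = 2 := by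
    intro c t ht ht1 hc
    obtain ⟨q, hq⟩ : ∃ q, f q = -f c := f.surjective _
    have h1 : ‖(c : E) - q‖ = 2 := by
      rw [← dist_f f, hq, coe_neg_sphere, sub_neg_eq_add, ← two_smul ℝ (f c : F), norm_smul,
        norm_coe]
      norm_num
    have e : (c : E) - q = (1 - t) • ((b : E) - q) + t • ((a : E) - q) := by rw [hc]; module
    have h2 := norm_add_le ((1 - t) • ((b : E) - q)) (t • ((a : E) - q))
    rw [← e, h1, norm_smul, norm_smul, Real.norm_of_nonneg (sub_nonneg.2 ht1),
      Real.norm_of_nonneg ht.le] at h2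
    have h3 : ‖(b : E) - q‖ ≤ 2 := (norm_sub_le _ _).trans (by rw [norm_coe, norm_coe]; norm_num)
    have h4 : ‖(a : E) - q‖ ≤ 2 := (norm_sub_le _ _).trans (by rw [norm_coe, norm_coe]; norm_num)
    have h6 := mul_le_mul_of_nonneg_left h3 (sub_nonneg.2 ht1)
    have h5 : ‖(a : E) - q‖ = 2 := by
      refine le_antisymm h4 (le_of_mul_le_mul_left ?_ ht)
      linarith
    rw [← dist_f f, hq, coe_neg_sphere, sub_neg_eq_add] at h5
    exact h5
  have hn : ∀ t ∈ Icc (0 : ℝ) 1,
      (1 - t) • (b : E) + t • (a : E) ∈ sphere (0 : E) 1 := fun t ht => by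
    rw [mem_sphere_zero_iff_norm, norm_combo (norm_coe b) (norm_coe a) (by rwa [add_comm])
      (sub_nonneg.2 ht.2) ht.1]
    ring
  let γ : Icc (0 : ℝ) 1 → sphere (0 : E) 1 := fun t => ⟨_, hn t t.2⟩
  have hγ : Continuous γ := Continuous.subtype_mk (by fun_prop) _
  let u : ℕ → Icc (0 : ℝ) 1 := fun n =>
    ⟨1 / (n + 1), ⟨by positivity, by rw [div_le_one (by positivity)]; simp⟩⟩
  have hu : Tendsto u atTop (𝓝 ⟨0, le_rfl, zero_le_one⟩) := by
    rw [tendsto_subtype_rng]
    exact tendsto_one_div_add_atTop_nhds_zero_nat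
  have hk : Continuous fun c : sphere (0 : E) 1 => ‖(f a : F) + f c‖ :=
    (continuous_const.add (continuous_subtype_val.comp f.continuous)).norm
  have lim := ((hk.comp hγ).tendsto _).comp hu
  have hb : γ ⟨0, le_rfl, zero_le_one⟩ = b := Subtype.ext (by simp [γ])
  have := tendsto_nhds_unique lim (tendsto_const_nhds.congr fun n =>
    (step (γ (u n)) (u n) (by simp only [u]; positivity) (u n).2.2 rfl).symm)
  simp only [Function.comp, hb] at this
  exact this

/-- Chords through the open ball go to such chords. -/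
theorem chord_inside (f : sphere (0 : E) 1 ≃ᵢ sphere (0 : F) 1) {p y : sphere (0 : E) 1}
    (hy : ‖(p : E) + y‖ < 2) : ‖(f p : F) + f y‖ < 2 := by
  refine lt_of_le_of_ne ((norm_add_le _ _).trans (by rw [norm_coe, norm_coe]; norm_num))
    fun h2 => ?_
  have := add_two_preserved f.symm h2
  rw [f.symm_apply_apply, f.symm_apply_apply] at this
  exact hy.ne this

end Vale.Agent.P084.LL
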