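import Vale.Agent.P084.LL.Extend
import Vale.Agent.P084.FinBasic

/-! The sum of an arbitrary normed space and a line, with the maximum norm, has the Mazur-Ulam
property. -/

namespace Vale.Agent.P084.LL

open Metric Set Filter Topology

universe u v

variable {Z W : Type*} [NormedAddCommGroup Z] [NormedSpace ℝ Z]
  [NormedAddCommGroup W] [NormedSpace ℝ W]

/-- Unit vectors with the same truncated distances to the ball are equal. -/
theorem eq_of_max_dist {a a' : Z} (ha : ‖a‖ = 1) {δ : ℝ} (hδ0 : 0 ≤ δ) (hδ : δ ≤ 1)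
    (h : ∀ b : Z, ‖b‖ ≤ 1 → max ‖a - b‖ δ = max ‖a' - b‖ δ) : a' = a := by
  by_contra hne
  set r := ‖a' - a‖ with hr
  have hr0 : 0 < r := norm_pos_iff.2 (sub_ne_zero.2 hne)
  have hrδ : r ≤ δ := by
    have h1 := h a ha.le
    rw [sub_self, norm_zero, max_eq_right hδ0] at h1
    rw [h1]
    exact le_max_left _ _
  set u := r⁻¹ • (a' - a) with hu
  have hun : ‖u‖ = 1 := by
    rw [hu, norm_smul, norm_inv, Real.norm_of_nonneg hr0.le, ← hr, inv_mul_cancel₀ hr0.ne']
  have he : a' - a = r • u := (smul_inv_smul₀ hr0.ne' _).symm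
  by_cases hau : ‖a - u‖ ≤ 1
  · have h1 := h (a - u) hau
    have e : a' - (a - u) = (r + 1) • u := by rw [add_smul, one_smul, ← he]; abel
    rw [sub_sub_cancel, hun, e, norm_smul, hun, mul_one,
      Real.norm_of_nonneg (by linarith), max_eq_left hδ] at h1
    have := le_max_left (r + 1) δ
    linarith
  · push Not at hau
    have h1 := h u hun.le
    have e : a' - u = r • a + (1 - r) • (a - u) := by
      rw [← sub_add_cancel a' a, he]; module
    have h2 : ‖a' - u‖ < ‖a - u‖ := by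
      rw [e]
      refine (norm_add_le _ _).trans_lt ?_
      rw [norm_smul, norm_smul, ha, Real.norm_of_nonneg hr0.le,
        Real.norm_of_nonneg (by linarith)]
      have := mul_lt_mul_of_pos_left hau hr0
      linarith
    rw [max_eq_left (hδ.trans hau.le)] at h1
    exact (max_lt h2 (hδ.trans_lt hau)).ne h1.symm

/-- A map of the levels of the sphere of a product with a line is linear on the upper half. -/
theorem exists_linear_upper (q : Z × ℝ → W)
    (hdist : ∀ x y : Z × ℝ, ‖x‖ = 1 → ‖y‖ = 1 → max ‖q x - q y‖ |x.2 - y.2| = ‖x - y‖)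
    (hsurj : ∀ (w : W) (c : ℝ), max ‖w‖ |c| = 1 → ∃ x : Z × ℝ, ‖x‖ = 1 ∧ x.2 = c ∧ q x = w) :
    ∃ L : Z ≃ₗᵢ[ℝ] W, ∀ x : Z × ℝ, ‖x‖ = 1 → 0 ≤ x.2 → q x = L x.1 := by
  have hnum : ∀ x : Z × ℝ, ‖x‖ = max ‖x.1‖ |x.2| := fun x => rfl
  have htop : ∀ a : Z, ‖a‖ ≤ 1 → ‖((a, 1) : Z × ℝ)‖ = 1 := fun a ha => by
    rw [hnum]; simpa using ha
  set o : Z × ℝ := (0, 1) with ho
  have ho1 : ‖o‖ = 1 := htop 0 (by simp)
  have hv : q o = 0 := by
    by_contra hne
    set v := q o with hvd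
    have hv0 : 0 < ‖v‖ := norm_pos_iff.2 hne
    have hn : ‖-(‖v‖⁻¹ • v)‖ = 1 := by
      rw [norm_neg, norm_smul, norm_inv, norm_norm, inv_mul_cancel₀ hv0.ne']
    obtain ⟨x, hx, hx2, hxq⟩ := hsurj (-(‖v‖⁻¹ • v)) 0 (by rw [hn]; simp)
    have h1 := hdist o x ho1 hx
    have h2 : ‖o - x‖ ≤ 1 := by
      rw [hnum] at hx ⊢
      have := le_max_left ‖x.1‖ |x.2|
      simp [ho, hx2] at *
      linarith
    have h3 : q o - q x = (1 + ‖v‖⁻¹) • v := by rw [hxq, ← hvd]; module
    have h4 := le_max_left ‖q o - q x‖ |o.2 - x.2|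
    rw [h1, h3, norm_smul, Real.norm_of_nonneg (by positivity), add_mul, one_mul,
      inv_mul_cancel₀ hv0.ne'] at h4
    linarith
  let g : Z → W := fun a => q (a, 1)
  have hiso : ∀ a b : Z, ‖a‖ ≤ 1 → ‖b‖ ≤ 1 → ‖g a - g b‖ = ‖a - b‖ := fun a b ha hb => by
    have := hdist _ _ (htop a ha) (htop b hb)
    rw [hnum] at this
    simpa using this
  have hg : ∀ a, ‖a‖ ≤ 1 → ‖g a‖ = ‖a‖ := fun a ha => by
    have := hiso a 0 ha (by simp)
    rwa [show g 0 = 0 from hv, sub_zero, sub_zero] at this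
  have hex : ∀ w : W, ∃ a : Z, ‖w‖ ≤ 1 → ‖a‖ ≤ 1 ∧ g a = w := fun w => by
    by_cases hw : ‖w‖ ≤ 1
    · obtain ⟨x, hx, hx2, hxq⟩ := hsurj w 1 (by simpa using hw)
      refine ⟨x.1, fun _ => ⟨?_, ?_⟩⟩
      · rw [← hx, hnum]; exact le_max_left _ _
      · change q (x.1, 1) = w
        rw [← hx2]; exact hxq
    · exact ⟨0, fun h => absurd h hw⟩
  choose h hh using hex
  obtain ⟨L, hL⟩ := Fin.exists_linear_of_ball_isometry (g := g) (h := h) hg
    (fun w hw => by rw [← hg _ (hh w hw).1, (hh w hw).2]) (fun w hw => (hh w hw).2)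
    (fun a ha => by
      have hga : ‖g a‖ ≤ 1 := (hg a ha).trans_le ha
      have := hiso _ a (hh _ hga).1 ha
      rw [(hh _ hga).2, sub_self, norm_zero] at this
      exact sub_eq_zero.1 (norm_eq_zero.1 this.symm)) hiso
  refine ⟨L, fun x hx hx0 => ?_⟩
  have hm := le_max_right ‖x.1‖ |x.2|
  have hm' := le_max_left ‖x.1‖ |x.2|
  rw [← hnum, hx] at hm hm'
  rw [abs_of_nonneg hx0] at hm
  rcases hm.lt_or_eq with hc | hc
  · have hx1 : ‖x.1‖ = 1 := by
      rw [hnum] at hx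
      rcases max_choice ‖x.1‖ |x.2| with e | e
      · rwa [e] at hx
      · rw [e, abs_of_nonneg hx0] at hx; linarith
    refine L.symm.injective ?_
    rw [L.symm_apply_apply]
    refine eq_of_max_dist hx1 (δ := 1 - x.2) (by linarith) (by linarith) fun b hb => ?_
    have := hdist x (b, 1) hx (htop b hb)
    rw [hnum] at this
    simp only [Prod.fst_sub, Prod.snd_sub] at this
    rw [abs_sub_comm, abs_of_nonneg (by linarith : 0 ≤ 1 - x.2)] at this
    rw [← this, show q (b, 1) = L b from (hL b hb).symm,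
      ← L.symm.norm_map (q x - L b), map_sub, L.symm_apply_apply]
  · rw [hL _ hm']
    change q x = q (x.1, 1)
    rw [← hc]

variable {F : Type*} [NormedAddCommGroup F] [NormedSpace ℝ F]

/-- A norm with a flat point at distance one from the kernel sphere is a maximum norm. -/
theorem norm_kernel_add (χ : StrongDual ℝ F) (hχ : ∀ v, |χ v| ≤ ‖v‖) {p : F} (hp : ‖p‖ = 1)
    (hχp : χ p = 1) (hu : ∀ u, ‖u‖ = 1 → χ u = 0 → ‖u + p‖ = 1) (w : F) (hw : χ w = 0) (t : ℝ) :
    ‖w + t • p‖ = max ‖w‖ |t| := by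
  have unit : ∀ u : F, ‖u‖ = 1 → χ u = 0 → ∀ s : ℝ, 0 ≤ s → ‖u + s • p‖ = max 1 s := by
    intro u hn hk s hs
    have hsle : s ≤ ‖u + s • p‖ := by
      have := (le_abs_self _).trans (hχ (u + s • p))
      rwa [map_add, map_smul, hk, hχp, zero_add, smul_eq_mul, mul_one] at this
    have hplus := hu u hn hk
    have hminus : ‖u - p‖ = 1 := by
      have := hu (-u) (by rwa [norm_neg]) (by simp [hk])
      rwa [← norm_neg, neg_add, neg_neg, ← sub_eq_add_neg] at this
    refine le_antisymm ?_ (max_le ?_ hsle)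
    · rcases le_total s 1 with h | h
      · refine le_max_of_le_left ?_
        rw [show u + s • p = s • (u + p) + (1 - s) • u by module]
        refine (norm_add_le _ _).trans (le_of_eq ?_)
        rw [norm_smul, norm_smul, hplus, hn, Real.norm_of_nonneg hs,
          Real.norm_of_nonneg (sub_nonneg.2 h)]
        ring
      · refine le_max_of_le_right ?_
        rw [show u + s • p = (u + p) + (s - 1) • p by module]
        refine (norm_add_le _ _).trans (le_of_eq ?_)
        rw [norm_smul, hplus, hp, Real.norm_of_nonneg (sub_nonneg.2 h)]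
        ring
    · have e : (1 + s) • u = (u + s • p) + s • (u - p) := by module
      have := norm_add_le (u + s • p) (s • (u - p))
      rw [← e, norm_smul, norm_smul, hn, hminus, Real.norm_of_nonneg hs,
        Real.norm_of_nonneg (by linarith)] at this
      linarith
  rcases eq_or_ne w 0 with rfl | hw0
  · simp [norm_smul, hp]
  have hr : 0 < ‖w‖ := norm_pos_iff.2 hw0
  set u := ‖w‖⁻¹ • w with hud
  have hun : ‖u‖ = 1 := by rw [hud, norm_smul, norm_inv, norm_norm, inv_mul_cancel₀ hr.ne']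
  have huk : χ u = 0 := by rw [hud, map_smul, hw, smul_zero]
  have hwu : w = ‖w‖ • u := (smul_inv_smul₀ hr.ne' w).symm
  have hs : ‖w‖ * (|t| / ‖w‖) = |t| := mul_div_cancel₀ _ hr.ne'
  have hmax : ‖w‖ * max 1 (|t| / ‖w‖) = max ‖w‖ |t| := by
    rw [mul_max_of_nonneg _ _ hr.le, mul_one, hs]
  rw [← hmax]
  rcases le_total 0 t with ht | ht
  · rw [← unit u hun huk _ (by positivity), ← norm_norm w, ← norm_smul, norm_norm, smul_add,
      ← hwu, smul_smul, hs, abs_of_nonneg ht]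
  · rw [← unit (-u) (by rwa [norm_neg]) (by simp [huk]) _ (by positivity), ← norm_norm w,
      ← norm_smul, norm_norm, smul_add, smul_neg, ← hwu, smul_smul, hs, abs_of_nonpos ht,
      neg_smul, ← neg_add, norm_neg]

/-- Every sphere isometry of a product with a line, with the maximum norm, extends linearly. -/
theorem tingley_prod_real (f : sphere (0 : Z × ℝ) 1 → sphere (0 : F) 1) (hf : Isometry f)
    (hs : Function.Surjective f) :
    ∃ T : (Z × ℝ) ≃ₗᵢ[ℝ] F, ∀ x : sphere (0 : Z × ℝ) 1, T (x : Z × ℝ) = (f x : F) := by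
  classical
  let e : sphere (0 : Z × ℝ) 1 ≃ᵢ sphere (0 : F) 1 :=
    ⟨Equiv.ofBijective f ⟨hf.injective, hs⟩, hf⟩
  let χ : StrongDual ℝ (Z × ℝ) := ContinuousLinearMap.snd ℝ Z ℝ
  have hlin : Lin χ ((0 : Z), (1 : ℝ)) := by
    have h1 : ∀ᶠ w in 𝓝 ((0 : Z), (1 : ℝ)), ‖w.1‖ < w.2 :=
      ((continuous_norm.comp continuous_fst).tendsto _).eventually_lt
        (continuous_snd.tendsto _) (by simp)
    filter_upwards [h1] with w hw
    have h0 : 0 ≤ w.2 := (norm_nonneg _).trans hw.le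
    change max ‖w.1‖ |w.2| = w.2
    rw [abs_of_nonneg h0, max_eq_right hw.le]
  have hz : ‖((0 : Z), (1 : ℝ))‖ = 1 := by rw [Prod.norm_def]; simp
  let z : sphere (0 : Z × ℝ) 1 := ⟨_, mem_sphere_zero_iff_norm.2 hz⟩
  obtain ⟨χ', hχ', heq⟩ := pull_functional e (z := z) hlin
  set p : F := (e z : F) with hpd
  have hp : ‖p‖ = 1 := norm_coe _
  have hχp : χ' p = 1 := heq z
  have habs : ∀ v, |χ' v| ≤ ‖v‖ := hχ'.abs_le
  have hu : ∀ u, ‖u‖ = 1 → χ' u = 0 → ‖u + p‖ = 1 := by
    intro u hn hk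
    obtain ⟨x, hx⟩ := e.surjective ⟨-u, mem_sphere_zero_iff_norm.2 (by rwa [norm_neg])⟩
    have h2 : (x : Z × ℝ).2 = 0 := by
      have := heq x
      rw [hx] at this
      simp [hk] at this
      exact this.symm
    have h3 := dist_f e z x
    rw [hx] at h3
    simp only [sub_neg_eq_add] at h3
    rw [← hpd] at h3
    rw [add_comm, h3]
    have h4 := norm_coe x
    rw [Prod.norm_def] at h4 ⊢
    simp [z, h2] at h4 ⊢
    linarith
  have hN := norm_kernel_add χ' habs hp hχp hu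
  let K := LinearMap.ker χ'.toLinearMap
  have hπ : ∀ v : F, v - χ' v • p ∈ K := fun v => by
    simp [K, hχp]
  let π : F → K := fun v => ⟨_, hπ v⟩
  have hsplit : ∀ v : F, ‖v‖ = max ‖π v‖ |χ' v| := fun v => by
    change ‖v‖ = max ‖(π v : F)‖ |χ' v|
    rw [← hN (π v : F) (hπ v) (χ' v)]
    simp [π]
  let q : Z × ℝ → K := fun x =>
    if hx : ‖x‖ = 1 then π (e ⟨x, mem_sphere_zero_iff_norm.2 hx⟩) else 0
  have hq : ∀ (x : Z × ℝ) (hx : ‖x‖ = 1),
      q x = π (e ⟨x, mem_sphere_zero_iff_norm.2 hx⟩) := fun x hx => dif_pos hx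
  have hlev : ∀ x : sphere (0 : Z × ℝ) 1, χ' (e x : F) = (x : Z × ℝ).2 := fun x => heq x
  have hπsub : ∀ a b, π a - π b = π (a - b) := fun a b => by
    ext; simp [π]; module
  have hdist : ∀ x y : Z × ℝ, ‖x‖ = 1 → ‖y‖ = 1 →
      max ‖q x - q y‖ |x.2 - y.2| = ‖x - y‖ := by
    intro x y hx hy
    have := dist_f e ⟨x, mem_sphere_zero_iff_norm.2 hx⟩ ⟨y, mem_sphere_zero_iff_norm.2 hy⟩
    rw [hsplit, map_sub, hlev, hlev, ← hπsub] at this
    rw [hq x hx, hq y hy]
    exact this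
  have hsurj : ∀ (w : K) (c : ℝ), max ‖w‖ |c| = 1 →
      ∃ x : Z × ℝ, ‖x‖ = 1 ∧ x.2 = c ∧ q x = w := by
    intro w c hwc
    have hwk : χ' (w : F) = 0 := w.2
    have hn : ‖(w : F) + c • p‖ = 1 := by rw [hN _ hwk c]; exact hwc
    obtain ⟨x, hx⟩ := e.surjective ⟨_, mem_sphere_zero_iff_norm.2 hn⟩
    refine ⟨x, norm_coe x, ?_, ?_⟩
    · rw [← hlev x, hx]; simp [hwk, hχp]
    · rw [hq _ (norm_coe x)]
      ext
      change (e x : F) - χ' (e x : F) • p = w
      rw [hx]; simp [hwk, hχp]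
  obtain ⟨L, hL⟩ := exists_linear_upper q hdist hsurj
  let R : Z × ℝ → Z × ℝ := fun x => (x.1, -x.2)
  have hR : ∀ x, ‖R x‖ = ‖x‖ := fun x => by simp [R, Prod.norm_def]
  obtain ⟨L', hL'⟩ := exists_linear_upper (q ∘ R)
    (fun x y hx hy => by
      have := hdist (R x) (R y) (by rw [hR, hx]) (by rw [hR, hy])
      rw [show R x - R y = R (x - y) by simp [R]; abel, hR] at this
      rw [← this]
      simp only [Function.comp, R]
      congr 1
      rw [← abs_neg]; ring_nf)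
    (fun w c hwc => by
      obtain ⟨x, hx, hx2, hxq⟩ := hsurj w (-c) (by rwa [abs_neg])
      exact ⟨R x, by rw [hR, hx], by simp [R, hx2], by simpa [R] using hxq⟩)
  have hLL : L = L' := by
    ext a : 1
    rcases eq_or_ne a 0 with rfl | ha
    · simp
    have hn : ‖(‖a‖⁻¹ • a, (0 : ℝ))‖ = 1 := by simp [Prod.norm_def, norm_smul, ha]
    have h1 := hL _ hn le_rfl
    have h2 := hL' _ hn le_rfl
    simp only [Function.comp, R, neg_zero] at h2
    rw [h1, map_smul, map_smul] at h2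
    exact smul_right_injective _ (inv_ne_zero (norm_ne_zero_iff.2 ha)) h2
  let Tl : Z × ℝ →ₗ[ℝ] F :=
    { toFun := fun x => (L x.1 : F) + x.2 • p
      map_add' := fun a b => by simp [add_smul]; abel
      map_smul' := fun c a => by simp [smul_smul] }
  have hTn : ∀ x, ‖Tl x‖ = ‖x‖ := fun x => by
    change ‖(L x.1 : F) + x.2 • p‖ = _
    rw [hN _ (L x.1).2]
    change max ‖L x.1‖ _ = _
    rw [L.norm_map]; rfl
  let T : Z × ℝ →ₗᵢ[ℝ] F := ⟨Tl, hTn⟩
  have hTs : Function.Surjective T := fun v => ⟨(L.symm (π v), χ' v), by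
    change (L (L.symm (π v)) : F) + χ' v • p = v
    rw [L.apply_symm_apply]; simp [π]⟩
  refine ⟨LinearIsometryEquiv.ofSurjective T hTs, fun x => ?_⟩
  have hqx : q (x : Z × ℝ) = L (x : Z × ℝ).1 := by
    rcases le_total 0 (x : Z × ℝ).2 with h | h
    · exact hL _ (norm_coe x) h
    · have := hL' (R x) (by rw [hR, norm_coe]) (by simp [R, h])
      rw [hLL]
      simpa [R] using this
  change (L (x : Z × ℝ).1 : F) + (x : Z × ℝ).2 • p = (e x : F)
  rw [← hqx, hq _ (norm_coe x), ← hlev x]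
  simp [π]

end Vale.Agent.P084.LL
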