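import Vale.Agent.P084.LL.Facet

/-! Tingley's problem for norms that are linear near a dense set of points. -/

namespace Vale.Agent.P084.LL

set_option linter.unusedSectionVars false

open Metric Set Filter Topology

variable {E F : Type*} [NormedAddCommGroup E] [NormedSpace ℝ E]
  [NormedAddCommGroup F] [NormedSpace ℝ F]

/-- The functionals of local linearity of the norm separate points. -/
def SeparatingLinear (E : Type*) [NormedAddCommGroup E] [NormedSpace ℝ E] : Prop :=
  ∀ x : E, x ≠ 0 → ∃ (v : E) (χ : StrongDual ℝ E), Lin χ v ∧ χ x ≠ 0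

variable (f : sphere (0 : E) 1 ≃ᵢ sphere (0 : F) 1)

theorem continuous_diff (f : sphere (0 : E) 1 ≃ᵢ sphere (0 : F) 1) :
    Continuous fun q : sphere (0 : E) 1 × sphere (0 : E) 1 => (f q.1 : F) - f q.2 :=
  (continuous_subtype_val.comp (f.continuous.comp continuous_fst)).sub
    (continuous_subtype_val.comp (f.continuous.comp continuous_snd))

/-- Chords through the open ball along which the norm is `χ`. -/
def U (χ : StrongDual ℝ E) : Set (sphere (0 : E) 1 × sphere (0 : E) 1) :=
  {q | Lin χ ((q.1 : E) - q.2) ∧ ‖(q.1 : E) + q.2‖ < 2}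

theorem isOpen_U (χ : StrongDual ℝ E) : IsOpen (U χ) :=
  IsOpen.inter ((isOpen_lin χ).preimage
    ((continuous_subtype_val.comp continuous_fst).sub (continuous_subtype_val.comp continuous_snd)))
    (isOpen_lt ((continuous_subtype_val.comp continuous_fst).add
      (continuous_subtype_val.comp continuous_snd)).norm continuous_const)

/-- Chords in `U` whose image chord is normed by `χ'`. -/
def Good (χ : StrongDual ℝ E) (χ' : StrongDual ℝ F) :
    Set (sphere (0 : E) 1 × sphere (0 : E) 1) :=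
  {q | q ∈ U χ ∧ Lin χ' ((f q.1 : F) - f q.2)}

theorem isOpen_Good (χ : StrongDual ℝ E) (χ' : StrongDual ℝ F) : IsOpen (Good f χ χ') :=
  (isOpen_U χ).inter ((isOpen_lin χ').preimage (continuous_diff f))

theorem generic_closed {χ : StrongDual ℝ E} {χ' : StrongDual ℝ F}
    {q : sphere (0 : E) 1 × sphere (0 : E) 1} (hq : q ∈ U χ)
    (hcl : q ∈ closure (Good f χ χ')) : q ∈ Good f χ χ' := by
  have : Nontrivial E := ⟨(q.1 : E), 0, ne_zero_of_mem_unit_sphere _⟩
  have hne : (f q.1 : F) ≠ f q.2 := by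
    intro h
    exact sub_ne_zero.1 hq.1.ne_zero (congrArg Subtype.val (f.injective (Subtype.ext h)))
  have hin : ‖(f q.1 : F) + f q.2‖ < 2 := chord_inside f hq.2
  obtain ⟨W₁, hW₁, W₂, hW₂, hW⟩ := mem_nhds_prod_iff.1 ((isOpen_U χ).mem_nhds hq)
  have back : ∀ (p : sphere (0 : E) 1) (W : Set (sphere (0 : E) 1)), W ∈ 𝓝 p →
      ∀ᶠ w in 𝓝 (f p : F), ∀ hw : ‖w‖ = 1,
        f.symm ⟨w, mem_sphere_zero_iff_norm.2 hw⟩ ∈ W := by
    intro p W hW'
    refine exists_nhd (P := fun V => f.symm V ∈ W) ?_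
    have := f.symm.continuous.tendsto (f p)
    rw [f.symm_apply_apply] at this
    exact this.eventually hW'
  obtain ⟨ψ, hψ⟩ := separable_lin (norm_coe (f q.1)) (norm_coe (f q.2)) hne hin
    (back q.1 W₁ hW₁) (back q.2 W₂ hW₂) (fun X hX Z hZ hX1 hZ1 => by
      have hx := hX hX1
      have hz := hZ hZ1
      have m1 := mem_of_mem_nhds hW₁
      have m2 := mem_of_mem_nhds hW₂
      obtain ⟨x, hxd⟩ : ∃ x, x = f.symm ⟨X, mem_sphere_zero_iff_norm.2 hX1⟩ := ⟨_, rfl⟩
      obtain ⟨z, hzd⟩ : ∃ z, z = f.symm ⟨Z, mem_sphere_zero_iff_norm.2 hZ1⟩ := ⟨_, rfl⟩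
      have ex : X = (f x : F) := by rw [hxd, f.apply_symm_apply]
      have ez : Z = (f z : F) := by rw [hzd, f.apply_symm_apply]
      rw [← hxd] at hx
      rw [← hzd] at hz
      have k1 := (hW (mk_mem_prod hx hz)).1.eq_self
      have k2 := (hW (mk_mem_prod m1 m2)).1.eq_self
      have k3 := (hW (mk_mem_prod hx m2)).1.eq_self
      have k4 := (hW (mk_mem_prod m1 hz)).1.eq_self
      rw [ex, ez, dist_f, dist_f, dist_f, dist_f]
      simp only [map_sub] at k1 k2 k3 k4
      linarith)
  obtain ⟨q', hq1, hq2⟩ := mem_closure_iff_nhds.1 hcl _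
    (((isOpen_lin ψ).preimage (continuous_diff f)).mem_nhds hψ)
  have he : ψ = χ' := Lin.unique hq1 hq2.2
  exact ⟨hq, he ▸ hψ⟩

theorem convex_domain (χ : StrongDual ℝ E) :
    Convex ℝ {d : E | Lin χ d} := by
  intro a ha b hb s t hs ht hst
  rcases eq_or_lt_of_le hs with rfl | hs'
  · obtain rfl : t = 1 := by linarith
    simpa using hb
  rcases eq_or_lt_of_le ht with rfl | ht'
  · obtain rfl : s = 1 := by linarith
    simpa using ha
  exact (ha.smul hs').add (hb.smul ht')

theorem mem_U_exit [Nontrivial E] {χ : StrongDual ℝ E} {m v : E} (hm : ‖m‖ < 1) (hv : Lin χ v) :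
    ((⟨exitP m v, mem_sphere_zero_iff_norm.2 (norm_exitP hm hv.ne_zero)⟩,
      ⟨exitP m (-v), mem_sphere_zero_iff_norm.2 (norm_exitP hm (neg_ne_zero.2 hv.ne_zero))⟩) :
        sphere (0 : E) 1 × sphere (0 : E) 1) ∈ U χ := by
  obtain ⟨hs, hs1⟩ := exitS_spec hm hv.ne_zero
  obtain ⟨ht, ht1⟩ := exitS_spec hm (neg_ne_zero.2 hv.ne_zero)
  set s := exitS m v
  set t := exitS m (-v)
  refine ⟨?_, ?_⟩
  · have e : exitP m v - exitP m (-v) = (s + t) • v := by
      simp only [exitP, s, t]; module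
    change Lin χ (exitP m v - exitP m (-v))
    rw [e]
    exact hv.smul (by linarith)
  · refine lt_of_le_of_ne
      ((norm_add_le _ _).trans ((add_le_add (norm_coe _).le (norm_coe _).le).trans (by norm_num)))
      fun h2 => ?_
    have := norm_combo (p := t / (s + t)) (q := s / (s + t)) hs1 ht1 h2
      (by positivity) (by positivity)
    have hst : t / (s + t) + s / (s + t) = 1 := by field_simp; ring
    have h0 : t / (s + t) * s - s / (s + t) * t = 0 := by ring
    have e : (t / (s + t)) • (m + s • v) + (s / (s + t)) • (m + t • -v) =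
        (t / (s + t) + s / (s + t)) • m +
          (t / (s + t) * s - s / (s + t) * t) • v := by module
    rw [e, hst, h0, one_smul, zero_smul, add_zero] at this
    linarith

theorem isPreconnected_U (χ : StrongDual ℝ E) : IsPreconnected (U χ) := by
  rcases eq_empty_or_nonempty (U χ) with h | ⟨q₀, -⟩
  · rw [h]; exact isPreconnected_empty
  have : Nontrivial E := ⟨(q₀.1 : E), 0, ne_zero_of_mem_unit_sphere _⟩
  have hD : IsPreconnected (ball (0 : E) 1 ×ˢ {d : E | Lin χ d}) :=
    ((convex_ball _ _).prod (convex_domain χ)).isPreconnected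
  have : PreconnectedSpace ↥(ball (0 : E) 1 ×ˢ {d : E | Lin χ d}) :=
    Subtype.preconnectedSpace hD
  have hm : ∀ p : ↥(ball (0 : E) 1 ×ˢ {d : E | Lin χ d}), ‖p.1.1‖ < 1 :=
    fun p => mem_ball_zero_iff.1 p.2.1
  have hd : ∀ p : ↥(ball (0 : E) 1 ×ˢ {d : E | Lin χ d}), p.1.2 ≠ 0 :=
    fun p => Lin.ne_zero p.2.2
  let Φ : ↥(ball (0 : E) 1 ×ˢ {d : E | Lin χ d}) → sphere (0 : E) 1 × sphere (0 : E) 1 :=
    fun p => (⟨exitP p.1.1 p.1.2, mem_sphere_zero_iff_norm.2 (norm_exitP (hm p) (hd p))⟩,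
      ⟨exitP p.1.1 (-p.1.2),
        mem_sphere_zero_iff_norm.2 (norm_exitP (hm p) (neg_ne_zero.2 (hd p)))⟩)
  have hΦ : Continuous Φ := by
    refine Continuous.prodMk (Continuous.subtype_mk ?_ _) (Continuous.subtype_mk ?_ _)
    · rw [continuous_iff_continuousAt]
      intro p
      exact ContinuousAt.comp (g := fun r : E × E => exitP r.1 r.2) (f := Subtype.val)
        (exitP_continuousAt (hm p) (hd p)) continuous_subtype_val.continuousAt
    · rw [continuous_iff_continuousAt]
      intro p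
      have hg : Continuous fun p : ↥(ball (0 : E) 1 ×ˢ {d : E | Lin χ d}) =>
          (p.1.1, -p.1.2) := by fun_prop
      exact ContinuousAt.comp (g := fun r : E × E => exitP r.1 r.2)
        (f := fun p : ↥(ball (0 : E) 1 ×ˢ {d : E | Lin χ d}) => (p.1.1, -p.1.2))
        (exitP_continuousAt (hm p) (neg_ne_zero.2 (hd p))) hg.continuousAt
  suffices range Φ = U χ by rw [← this]; exact isPreconnected_range hΦ
  refine Subset.antisymm ?_ ?_
  · rintro _ ⟨p, rfl⟩
    exact mem_U_exit (hm p) p.2.2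
  · rintro ⟨x, y⟩ ⟨h1, h2⟩
    have hmm : (1 / 2 : ℝ) • ((x : E) + y) ∈ ball (0 : E) 1 := by
      rw [mem_ball_zero_iff, norm_smul]
      norm_num
      linarith
    have hdd : (1 / 2 : ℝ) • ((x : E) - y) ∈ {d : E | Lin χ d} := h1.smul (by norm_num)
    refine ⟨⟨(_, _), mk_mem_prod hmm hdd⟩, ?_⟩
    have hd0 := Lin.ne_zero hdd
    refine Prod.ext (Subtype.ext ?_) (Subtype.ext ?_)
    · change exitP ((1 / 2 : ℝ) • ((x : E) + y)) ((1 / 2 : ℝ) • ((x : E) - y)) = x
      have e : (x : E) =
          (1 / 2 : ℝ) • ((x : E) + y) + (1 : ℝ) • (1 / 2 : ℝ) • ((x : E) - y) := by module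
      rw [exitP_eq (mem_ball_zero_iff.1 hmm) hd0 one_pos (by rw [← e, norm_coe]), ← e]
    · change exitP ((1 / 2 : ℝ) • ((x : E) + y)) (-((1 / 2 : ℝ) • ((x : E) - y))) = y
      have e : (y : E) =
          (1 / 2 : ℝ) • ((x : E) + y) + (1 : ℝ) • -((1 / 2 : ℝ) • ((x : E) - y)) := by module
      rw [exitP_eq (mem_ball_zero_iff.1 hmm) (neg_ne_zero.2 hd0) one_pos
        (by rw [← e, norm_coe]), ← e]

/-- The functional of a flat point is transported by the isometry. -/
theorem pull_functional {χ : StrongDual ℝ E} {z : sphere (0 : E) 1}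
    (hz : Lin χ (z : E)) :
    ∃ χ' : StrongDual ℝ F, Lin χ' (f z : F) ∧
      ∀ x : sphere (0 : E) 1, χ' (f x : F) = χ (x : E) := by
  obtain ⟨χ', hχ', hχ'', -⟩ := facet_pair f hz
  refine ⟨χ', hχ', ?_⟩
  have hstartU : (z, -z) ∈ U χ := by
    refine ⟨?_, ?_⟩
    · simp only [coe_neg_sphere, sub_neg_eq_add]
      exact hz.add hz
    · simp
  have hstart : (z, -z) ∈ Good f χ χ' := by
    refine ⟨hstartU, ?_⟩
    have := hχ''.neg
    simp only [neg_neg] at this
    simpa [sub_eq_add_neg] using hχ'.add this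
  have hcl : U χ ⊆ closure (Good f χ χ') :=
    ((isPreconnected_U χ).subset_of_closure_inter_subset (isOpen_Good f χ χ')
      ⟨(z, -z), hstartU, hstart⟩ fun q hq => generic_closed f hq.2 hq.1).trans subset_closure
  let g : sphere (0 : E) 1 → ℝ := fun x => χ' (f x : F) - χ (x : E)
  have hg : Continuous g :=
    (χ'.continuous.comp (continuous_subtype_val.comp f.continuous)).sub
      (χ.continuous.comp continuous_subtype_val)
  have heq : ∀ q ∈ U χ, g q.1 = g q.2 := by
    intro q hq
    refine (isClosed_eq (hg.comp continuous_fst) (hg.comp continuous_snd)).closure_subset_iff.2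
      (fun r (hr : r ∈ Good f χ χ') => ?_) (hcl hq)
    have k1 := hr.1.1.eq_self
    have k2 := hr.2.eq_self
    rw [dist_f, k1] at k2
    simp only [map_sub] at k2
    simp only [mem_ofPred_eq, Function.comp, g]
    linarith
  have : PreconnectedSpace (U χ) := Subtype.preconnectedSpace (isPreconnected_U χ)
  have hlc : IsLocallyConstant fun q : U χ => g q.1.1 := by
    rw [IsLocallyConstant.iff_eventually_eq]
    intro q
    have hc : Continuous fun r : U χ => (r.1.1, q.1.2) := by fun_prop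
    filter_upwards [(hc.tendsto q).eventually ((isOpen_U χ).mem_nhds q.2)] with r hr
    exact (heq (r.1.1, q.1.2) hr).trans (heq q.1 q.2).symm
  have hzero : ∀ q ∈ U χ, g q.1 = 0 := by
    intro q hq
    have := hlc.apply_eq_of_preconnectedSpace ⟨q, hq⟩ ⟨_, hstartU⟩
    simp only at this
    rw [this]
    simp only [g]
    rw [← hχ'.eq_self, ← hz.eq_self, norm_coe, norm_coe, sub_self]
  intro x
  suffices g x = 0 by simp only [g] at this; linarith
  have : Nontrivial E := ⟨(z : E), 0, ne_zero_of_mem_unit_sphere _⟩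
  by_contra hgx
  have hev := exists_nhd (P := fun y => g y ≠ 0)
    ((isOpen_ne_fun hg continuous_const).mem_nhds hgx)
  have hc : Tendsto (fun ε : ℝ => (x : E) + ε • (z : E)) (𝓝[>] 0) (𝓝 (x : E)) := by
    have : Continuous fun ε : ℝ => (x : E) + ε • (z : E) := by fun_prop
    simpa using (this.tendsto 0).mono_left nhdsWithin_le_nhds
  obtain ⟨ε₀, ⟨hev0, hne0⟩, hε₀⟩ := (((((tendsto_normalize (norm_coe x)).comp hc).eventually hev).and
    (hc.eventually_ne (ne_zero_of_mem_unit_sphere x))).and self_mem_nhdsWithin).exists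
  have hεp : (0 : ℝ) < ε₀ := hε₀
  set w : E := (x : E) + ε₀ • (z : E) with hw
  have hwp : 0 < ‖w‖ := norm_pos_iff.2 hne0
  have hn : ‖‖w‖⁻¹ • w‖ = 1 := by
    rw [norm_smul, norm_inv, norm_norm, inv_mul_cancel₀ hwp.ne']
  set p : sphere (0 : E) 1 := ⟨‖w‖⁻¹ • w, mem_sphere_zero_iff_norm.2 hn⟩ with hp
  -- chords of the family ending at a given point
  have chord : ∀ (p : sphere (0 : E) 1) (v : E) (t : ℝ), 0 < t → Lin χ v →
      ‖(p : E) - t • v‖ < 1 → g p = 0 := by
    intro p v t ht hv hm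
    set m := (p : E) - t • v with hmdef
    have e : (p : E) = m + t • v := by rw [hmdef]; module
    have hq := mem_U_exit hm hv
    have := hzero _ hq
    convert this
    exact (Subtype.ext (by
      change exitP m v = p
      rw [exitP_eq hm hv.ne_zero ht (by rw [← e, norm_coe]), ← e])).symm
  by_cases hlt : ‖w‖ < 1
  · -- the norm decreases from `x` along the direction: `x` is itself a second endpoint
    apply hgx
    have e : (x : E) = w + ε₀ • -(z : E) := by rw [hw]; module
    have hq := mem_U_exit hlt hz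
    have h0 := (heq _ hq).symm.trans (hzero _ hq)
    convert h0
    exact (Subtype.ext (by
      change exitP w (-(z : E)) = x
      rw [exitP_eq hlt (neg_ne_zero.2 hz.ne_zero) hεp (by rw [← e, norm_coe]), ← e])).symm
  apply hev0 hn
  change g p = 0
  rcases (not_lt.1 hlt).lt_or_eq with hlt | heq1
  · refine chord p (z : E) (‖w‖⁻¹ * ε₀) (by positivity) hz ?_
    have e : (p : E) - (‖w‖⁻¹ * ε₀) • (z : E) = ‖w‖⁻¹ • (x : E) := by
      simp only [hp, hw]; module
    rw [e, norm_smul, norm_inv, norm_norm, norm_coe, mul_one]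
    exact inv_lt_one_of_one_lt₀ hlt
  · have h' : Tendsto (fun δ : ℝ => (z : E) + δ • (x : E)) (𝓝[>] 0) (𝓝 (z : E)) := by
      have : Continuous fun δ : ℝ => (z : E) + δ • (x : E) := by fun_prop
      simpa using (this.tendsto 0).mono_left nhdsWithin_le_nhds
    have h'' : Tendsto (fun δ : ℝ => δ * ε₀) (𝓝[>] 0) (𝓝 0) := by
      have : Continuous fun δ : ℝ => δ * ε₀ := by fun_prop
      simpa using (this.tendsto 0).mono_left nhdsWithin_le_nhds
    obtain ⟨δ, ⟨hδ, hδ1⟩, hδ0⟩ := (((h'.eventually ((isOpen_lin χ).mem_nhds hz)).and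
      (h''.eventually_lt_const one_pos)).and self_mem_nhdsWithin).exists
    have hδp : (0 : ℝ) < δ := hδ0
    refine chord p _ ε₀ hεp hδ ?_
    have e : (p : E) - ε₀ • ((z : E) + δ • (x : E)) = (1 - δ * ε₀) • (x : E) := by
      change ‖w‖⁻¹ • w - _ = _
      rw [← heq1, inv_one, one_smul, hw]; module
    rw [e, norm_smul, norm_coe, mul_one, Real.norm_of_nonneg (by linarith)]
    have := mul_pos hδp hεp
    linarith

end Vale.Agent.P084.LL
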