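import Vale.Agent.P084.LL.Facet
import Vale.Agent.P084.LL.Defs
import Vale.Agent.P084.FinBasic

/-! Spaces with a unit point aligned, up to sign, with every unit vector (order unit spaces) have
the Mazur-Ulam property. -/

namespace Vale.Agent.P084.LL

open Metric Set Filter Topology

universe u v

variable {X : Type*} [NormedAddCommGroup X] [NormedSpace ℝ X]
  {F : Type*} [NormedAddCommGroup F] [NormedSpace ℝ F]

/-- A unit point at distance two from each unit vector or from its negative. -/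
def UPoint (e : X) : Prop :=
  ‖e‖ = 1 ∧ ∀ x : X, ‖x‖ = 1 → ‖x + e‖ = 2 ∨ ‖x - e‖ = 2

/-- The upper norm given by a unit point. -/
noncomputable def hi (e v : X) : ℝ := ‖v + (‖v‖ + 1) • e‖ - (‖v‖ + 1)

theorem norm_unit_add {e : X} (he : ‖e‖ = 1) {x : X} (hx : ‖x‖ = 1) (h : ‖x + e‖ = 2) {a b : ℝ}
    (ha : 0 ≤ a) (hb : 0 ≤ b) : ‖a • x + b • e‖ = a + b :=
  norm_combo hx he h ha hb

theorem UPoint.align {e : X} (he : UPoint e) (v : X) :
    (∀ r : ℝ, 0 ≤ r → ‖v + r • e‖ = ‖v‖ + r) ∨ ∀ r : ℝ, 0 ≤ r → ‖v - r • e‖ = ‖v‖ + r := by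
  rcases eq_or_ne v 0 with rfl | hv
  · left; intro r hr
    rw [zero_add, norm_smul, he.1, Real.norm_of_nonneg hr, norm_zero, zero_add, mul_one]
  have hn : ‖‖v‖⁻¹ • v‖ = 1 := by
    rw [norm_smul, norm_inv, norm_norm, inv_mul_cancel₀ (norm_ne_zero_iff.2 hv)]
  have ev : ‖v‖ • ‖v‖⁻¹ • v = v := smul_inv_smul₀ (norm_ne_zero_iff.2 hv) v
  rcases he.2 _ hn with h | h
  · left; intro r hr
    have := norm_unit_add he.1 hn h (norm_nonneg v) hr
    rwa [ev] at this
  · right; intro r hr
    rw [sub_eq_add_neg] at h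
    have := norm_combo hn (by rw [norm_neg, he.1]) h (norm_nonneg v) hr
    rwa [ev, smul_neg, ← sub_eq_add_neg] at this

theorem UPoint.hi_eq {e : X} (he : UPoint e) (v : X) {N : ℝ} (hN : ‖v‖ + 1 ≤ N) :
    ‖v + N • e‖ = hi e v + N := by
  set N₀ := ‖v‖ + 1 with hN₀
  have hN₀p : 0 < N₀ := by positivity
  rcases he.align (v + N₀ • e) with h | h
  · have := h (N - N₀) (by linarith)
    rw [show v + N₀ • e + (N - N₀) • e = v + N • e by module] at this
    rw [this, hi, ← hN₀]
    ring
  · exfalso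
    have := h N₀ hN₀p.le
    rw [add_sub_cancel_right] at this
    have := norm_nonneg (v + N₀ • e)
    linarith

theorem UPoint.norm_add_smul {e : X} (he : UPoint e) (v : X) (t : ℝ) :
    ‖v + t • e‖ = max (hi e v + t) (hi e (-v) - t) := by
  set N := ‖v‖ + 1 + |t| with hN
  have ht := le_abs_self t
  have ht' := neg_abs_le t
  have hv := norm_nonneg v
  have e1 := he.hi_eq v (show ‖v‖ + 1 ≤ N by linarith [abs_nonneg t])
  have e2 := he.hi_eq (-v) (show ‖-v‖ + 1 ≤ N by rw [norm_neg]; linarith [abs_nonneg t])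
  have e2' : ‖v - N • e‖ = hi e (-v) + N := by
    rw [← e2, ← norm_neg, neg_sub, sub_eq_neg_add]
  refine le_antisymm ?_ (max_le ?_ ?_)
  · rcases he.align (v + t • e) with h | h
    · have := h (N - t) (by linarith)
      rw [show v + t • e + (N - t) • e = v + N • e by module, e1] at this
      exact le_max_of_le_left (by linarith)
    · have := h (N + t) (by linarith)
      rw [show v + t • e - (N + t) • e = v - N • e by module, e2'] at this
      exact le_max_of_le_right (by linarith)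
  · have := norm_add_le (v + t • e) ((N - t) • e)
    rw [show v + t • e + (N - t) • e = v + N • e by module, e1, norm_smul, he.1, mul_one,
      Real.norm_of_nonneg (by linarith : 0 ≤ N - t)] at this
    linarith
  · have := norm_sub_le (v + t • e) ((N + t) • e)
    rw [show v + t • e - (N + t) • e = v - N • e by module, e2', norm_smul, he.1, mul_one,
      Real.norm_of_nonneg (by linarith : 0 ≤ N + t)] at this
    linarith

theorem UPoint.norm_eq {e : X} (he : UPoint e) (v : X) : ‖v‖ = max (hi e v) (hi e (-v)) := by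
  simpa using he.norm_add_smul v 0

theorem UPoint.hi_le {e : X} (he : UPoint e) (v : X) : hi e v ≤ ‖v‖ :=
  (le_max_left _ _).trans_eq (he.norm_eq v).symm

theorem UPoint.hi_zero {e : X} (he : UPoint e) : hi e 0 = 0 := by
  have := he.norm_eq 0
  simpa using this.symm

theorem UPoint.hi_add_le {e : X} (he : UPoint e) (a b : X) :
    hi e (a + b) ≤ hi e a + hi e b := by
  have h1 := norm_add_le a b
  have := norm_nonneg a
  have := norm_nonneg b
  have ea := he.hi_eq a (show ‖a‖ + 1 ≤ ‖a‖ + ‖b‖ + 1 by linarith)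
  have eb := he.hi_eq b (show ‖b‖ + 1 ≤ ‖a‖ + ‖b‖ + 1 by linarith)
  have eab := he.hi_eq (a + b) (show ‖a + b‖ + 1 ≤ 2 * (‖a‖ + ‖b‖ + 1) by linarith)
  have h2 := norm_add_le (a + (‖a‖ + ‖b‖ + 1) • e) (b + (‖a‖ + ‖b‖ + 1) • e)
  rw [show a + (‖a‖ + ‖b‖ + 1) • e + (b + (‖a‖ + ‖b‖ + 1) • e) =
    a + b + (2 * (‖a‖ + ‖b‖ + 1)) • e by module, ea, eb, eab] at h2
  linarith

theorem UPoint.hi_sum_nonneg {e : X} (he : UPoint e) (v : X) : 0 ≤ hi e v + hi e (-v) := by
  have := he.hi_add_le v (-v)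
  rwa [add_neg_cancel, he.hi_zero] at this

theorem UPoint.hi_shift {e : X} (he : UPoint e) (v : X) (t : ℝ) :
    hi e (v + t • e) = hi e v + t := by
  set N := ‖v + t • e‖ + 1 + ‖v‖ + 1 + |t| with hN
  have := le_abs_self t
  have := neg_abs_le t
  have := norm_nonneg v
  have := norm_nonneg (v + t • e)
  have e1 := he.hi_eq (v + t • e) (show ‖v + t • e‖ + 1 ≤ N by linarith)
  have e2 := he.hi_eq v (show ‖v‖ + 1 ≤ N + t by linarith)
  rw [show v + t • e + N • e = v + (N + t) • e by module, e2] at e1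
  linarith

theorem UPoint.hi_neg_shift {e : X} (he : UPoint e) (v : X) (t : ℝ) :
    hi e (-(v + t • e)) = hi e (-v) - t := by
  rw [show -(v + t • e) = -v + (-t) • e by module, he.hi_shift]
  ring

theorem UPoint.hi_smul {e : X} (he : UPoint e) (v : X) {c : ℝ} (hc : 0 ≤ c) :
    hi e (c • v) = c * hi e v := by
  rcases hc.eq_or_lt with rfl | hcp
  · simp [he.hi_zero]
  set N := ‖v‖ + 1 + c⁻¹ with hN
  have := norm_nonneg v
  have hci : c * c⁻¹ = 1 := mul_inv_cancel₀ hcp.ne'
  have := mul_nonneg hc (norm_nonneg v)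
  have hb : ‖c • v‖ + 1 ≤ c * N := by
    rw [norm_smul, Real.norm_of_nonneg hc, hN, mul_add, mul_add, hci]
    linarith
  have e1 := he.hi_eq (c • v) hb
  have e2 := he.hi_eq v (show ‖v‖ + 1 ≤ N by have := inv_nonneg.2 hc; linarith)
  rw [show c • v + (c * N) • e = c • (v + N • e) by module, norm_smul, Real.norm_of_nonneg hc,
    e2] at e1
  linarith

theorem UPoint.hi_unit {e : X} (he : UPoint e) {x : X} (hx : ‖x‖ = 1) :
    hi e x = ‖x + e‖ - 1 := by
  have h1 := he.norm_add_smul x 1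
  rw [one_smul] at h1
  have h2 := he.hi_le (-x)
  rw [norm_neg, hx] at h2
  have h3 := he.hi_sum_nonneg x
  rw [h1, max_eq_left (by linarith)]
  ring

theorem UPoint.eq_zero {e : X} (he : UPoint e) {v : X} (h1 : hi e v ≤ 0) (h2 : hi e (-v) ≤ 0) :
    v = 0 :=
  norm_le_zero_iff.1 ((he.norm_eq v).le.trans (max_le h1 h2))

/-- A sphere isometry sends a unit point to a unit point, antipodally to its negative. -/
theorem upoint_image {e : X} (he : UPoint e) (f : sphere (0 : X) 1 ≃ᵢ sphere (0 : F) 1)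
    {E : sphere (0 : X) 1} (hE : (E : X) = e) :
    UPoint (f E : F) ∧ (f (-E) : F) = -(f E : F) := by
  obtain ⟨q, hq⟩ := f.surjective (-f E)
  obtain ⟨q', hq'⟩ := f.surjective (-f (-E))
  have hcov : ∀ y : sphere (0 : F) 1, ‖(y : F) - f E‖ = 2 ∨ ‖(y : F) - f (-E)‖ = 2 := by
    intro y
    obtain ⟨x, rfl⟩ := f.surjective y
    rw [dist_f, dist_f, coe_neg_sphere, hE, sub_neg_eq_add]
    exact (he.2 _ (norm_coe x)).symm
  have hcov' : ∀ x : sphere (0 : X) 1, ‖(x : X) - q‖ = 2 ∨ ‖(x : X) - q'‖ = 2 := by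
    intro x
    rw [← dist_f f, ← dist_f f, hq, hq', coe_neg_sphere, coe_neg_sphere, sub_neg_eq_add,
      sub_neg_eq_add]
    rcases hcov (-f x) with h | h
    · rw [coe_neg_sphere, ← neg_add', norm_neg] at h; exact Or.inl h
    · rw [coe_neg_sphere, ← neg_add', norm_neg] at h; exact Or.inr h
  have hlt : ‖(f E : F) + f (-E)‖ < 2 := chord_inside f (by simp)
  have hqe : ‖(q : X) + e‖ < 2 := by
    rw [← hE, ← sub_neg_eq_add, ← coe_neg_sphere, ← dist_f f, hq, coe_neg_sphere, ← neg_add',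
      norm_neg]
    exact hlt
  have hqe' : ‖(q' : X) - e‖ < 2 := by
    rw [← hE, ← dist_f f, hq', coe_neg_sphere, ← neg_add', norm_neg, add_comm]
    exact hlt
  -- the second of them is the unit point itself
  have hh : hi e (q : X) < 1 := by
    rw [he.hi_unit (norm_coe q)]; linarith
  have hh' : hi e (-(q' : X)) < 1 := by
    have := he.hi_unit (x := -(q' : X)) (by rw [norm_neg, norm_coe])
    rw [← norm_neg, neg_add_rev, neg_neg, ← sub_eq_neg_add] at this
    linarith
  have hq1 : hi e (-(q : X)) = 1 := by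
    have := he.norm_eq (q : X)
    rw [norm_coe] at this
    rcases max_choice (hi e (q : X)) (hi e (-(q : X))) with h | h <;> rw [h] at this
    · linarith
    · exact this.symm
  have hq1' : hi e (q' : X) = 1 := by
    have := he.norm_eq (q' : X)
    rw [norm_coe] at this
    rcases max_choice (hi e (q' : X)) (hi e (-(q' : X))) with h | h <;> rw [h] at this
    · exact this.symm
    · linarith
  set r := (1 + hi e (-(q' : X))) / 2 with hr
  set z : X := (q' : X) + (-(1 - r)) • e with hz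
  have z1 : hi e z = r := by rw [hz, he.hi_shift, hq1']; ring
  have z2 : hi e (-z) = r := by rw [hz, he.hi_neg_shift, hr]; ring
  have hr1 : r < 1 := by linarith
  have hr0 : r = 0 := by
    by_contra hne
    have := he.hi_sum_nonneg z
    have hr0 : 0 < r := lt_of_le_of_ne (by linarith) (Ne.symm hne)
    set w : X := (1 / (2 * r)) • z with hw
    have hc : 0 ≤ 1 / (2 * r) := by positivity
    have w1 : hi e w = 1 / 2 := by rw [hw, he.hi_smul _ hc, z1]; field_simp
    have w2 : hi e (-w) = 1 / 2 := by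
      rw [hw, ← smul_neg, he.hi_smul _ hc, z2]; field_simp
    have hxn : ‖w + (-(1 / 2 : ℝ)) • e‖ = 1 := by
      rw [he.norm_add_smul, w1, w2]; norm_num
    set s := (1 + hi e (q : X)) / 2 with hs
    set z₀ : X := (q : X) + (1 - s) • e with hz₀
    have n1 : hi e z₀ = s := by rw [hz₀, he.hi_shift, hs]; ring
    have n2 : hi e (-z₀) = s := by rw [hz₀, he.hi_neg_shift, hq1, hs]; ring
    rcases hcov' ⟨_, mem_sphere_zero_iff_norm.2 hxn⟩ with h | h
    · have e1 : w + (-(1 / 2 : ℝ)) • e - (q : X) = (w - z₀) + (1 / 2 - s) • e := by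
        rw [hz₀]; module
      rw [e1] at h
      have h3 := norm_add_le (w - z₀) ((1 / 2 - s) • e)
      have h4 := norm_sub_le w z₀
      rw [he.norm_eq w, w1, w2, max_self, he.norm_eq z₀, n1, n2, max_self] at h4
      rw [norm_smul, he.1, mul_one, Real.norm_eq_abs, h] at h3
      rcases le_total 0 (1 / 2 - s) with hh0 | hh0
      · rw [abs_of_nonneg hh0] at h3; linarith
      · rw [abs_of_nonpos hh0] at h3; linarith
    · have e1 : w + (-(1 / 2 : ℝ)) • e - (q' : X) =
          (1 / (2 * r) - 1) • z + (-(3 / 2 - r)) • e := by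
        rw [hw, hz]; module
      rw [e1] at h
      have h3 := norm_add_le ((1 / (2 * r) - 1) • z) ((-(3 / 2 - r)) • e)
      rw [norm_smul, norm_smul, he.1, mul_one, he.norm_eq z, z1, z2, max_self, h,
        Real.norm_eq_abs, Real.norm_eq_abs, abs_neg, abs_of_nonneg (by linarith : 0 ≤ 3 / 2 - r),
        ← abs_of_pos hr0, ← abs_mul, abs_of_pos hr0] at h3
      have hrr : (1 / (2 * r) - 1) * r = 1 / 2 - r := by field_simp
      rw [hrr] at h3
      rcases le_total 0 (1 / 2 - r) with hh0 | hh0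
      · rw [abs_of_nonneg hh0] at h3; linarith
      · rw [abs_of_nonpos hh0] at h3; linarith
  have hz0 : z = 0 := he.eq_zero (by rw [z1, hr0]) (by rw [z2, hr0])
  have hqE : q' = E := by
    apply Subtype.ext
    rw [hE]
    rw [hz, hr0, sub_zero] at hz0
    simpa [add_eq_zero_iff_eq_neg] using hz0
  have hneg : (f (-E) : F) = -(f E : F) := by
    have := congrArg (fun a : sphere (0 : F) 1 => (a : F)) hq'
    simp only [hqE, coe_neg_sphere] at this
    rw [this, neg_neg]
  refine ⟨⟨norm_coe _, fun y hy => ?_⟩, hneg⟩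
  have := hcov ⟨y, mem_sphere_zero_iff_norm.2 hy⟩
  rw [hneg, sub_neg_eq_add] at this
  exact this.symm

/-- Translation along the unit point commutes with a sphere isometry. -/
theorem translate {e : X} {p : F} (he : UPoint e) (hp : UPoint p)
    (f : sphere (0 : X) 1 ≃ᵢ sphere (0 : F) 1)
    (h1 : ∀ x : sphere (0 : X) 1, hi p (f x : F) = hi e (x : X))
    (h2 : ∀ x : sphere (0 : X) 1, hi p (-(f x : F)) = hi e (-(x : X)))
    {R : ℝ} (hR : 0 ≤ R) (x : sphere (0 : X) 1) (hx1 : hi e (x : X) = 1)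
    (hx2 : hi e (-(x : X)) = 1 - R) (x' : sphere (0 : X) 1) (hx' : (x' : X) = (x : X) - R • e) :
    (f x' : F) = (f x : F) - R • p := by
  rcases hR.eq_or_lt with rfl | hRp
  · rw [zero_smul, sub_zero] at hx' ⊢
    rw [Subtype.ext hx']
  have hsn := he.hi_sum_nonneg (x : X)
  have hR2 : R ≤ 2 := by linarith
  let L : Set (sphere (0 : X) 1) := {a | hi e (a : X) = 1 ∧ hi e (-(a : X)) = 1 - R}
  have hstep : ∀ a : sphere (0 : X) 1, ∃ b : sphere (0 : X) 1,
      a ∈ L → b ∈ L ∧ ∃ b' : sphere (0 : X) 1, (b' : X) = (b : X) - R • e ∧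
        (f b' : F) = (f a : F) - R • p := by
    intro a
    by_cases ha : a ∈ L
    · have k1 : hi p (f a : F) = 1 := by rw [h1]; exact ha.1
      have k2 : hi p (-(f a : F)) = 1 - R := by rw [h2]; exact ha.2
      have hn : ‖(f a : F) - R • p‖ = 1 := by
        rw [sub_eq_add_neg, ← neg_smul, hp.norm_add_smul, k1, k2, max_eq_right (by linarith)]
        ring
      obtain ⟨c, hc⟩ := f.surjective ⟨_, mem_sphere_zero_iff_norm.2 hn⟩
      have hc' : (f c : F) = (f a : F) - R • p := by rw [hc]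
      have c1 : hi e (c : X) = 1 - R := by
        rw [← h1, hc', sub_eq_add_neg, ← neg_smul, hp.hi_shift, k1]; ring
      have c2 : hi e (-(c : X)) = 1 := by
        rw [← h2, hc', sub_eq_add_neg, ← neg_smul, hp.hi_neg_shift, k2]; ring
      have hb : ‖(c : X) + R • e‖ = 1 := by
        rw [he.norm_add_smul, c1, c2, max_eq_left (by linarith)]; ring
      refine ⟨⟨_, mem_sphere_zero_iff_norm.2 hb⟩, fun _ => ⟨⟨?_, ?_⟩, c, ?_, hc'⟩⟩
      · change hi e ((c : X) + R • e) = 1
        rw [he.hi_shift, c1]; ring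
      · change hi e (-((c : X) + R • e)) = 1 - R
        rw [he.hi_neg_shift, c2]
      · exact (add_sub_cancel_right (c : X) (R • e)).symm
    · exact ⟨a, fun h => absurd h ha⟩
  choose π hπ using hstep
  let xs : ℕ → sphere (0 : X) 1 := fun n => π^[n] x
  have hmem : ∀ n, xs n ∈ L := by
    intro n
    induction n with
    | zero => exact ⟨hx1, hx2⟩
    | succ n ih =>
      simp only [xs, Function.iterate_succ_apply']
      exact (hπ _ ih).1
  have hnx : ∀ n, ∃ b' : sphere (0 : X) 1, (b' : X) = (xs (n + 1) : X) - R • e ∧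
      (f b' : F) = (f (xs n) : F) - R • p := fun n => by
    simp only [xs, Function.iterate_succ_apply']
    exact (hπ _ (hmem n)).2
  choose bs hbs hfbs using hnx
  -- the orbit increases in `X` and its image decreases
  have stepX : ∀ n, hi e ((xs n : X) - xs (n + 1)) ≤ 0 := fun n => by
    have h := dist_f f (xs n) (bs n)
    rw [hfbs, sub_sub_cancel, norm_smul, hp.1, mul_one, Real.norm_of_nonneg hR, hbs,
      show (xs n : X) - ((xs (n + 1) : X) - R • e) = (xs n : X) - xs (n + 1) + R • e by module,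
      he.norm_add_smul] at h
    have := le_max_left (hi e ((xs n : X) - xs (n + 1)) + R)
      (hi e (-((xs n : X) - xs (n + 1))) - R)
    linarith
  have stepY : ∀ n, hi p ((f (xs (n + 1)) : F) - f (xs n)) ≤ 0 := fun n => by
    have h := dist_f f (xs (n + 1)) (bs n)
    rw [hbs, sub_sub_cancel, norm_smul, he.1, mul_one, Real.norm_of_nonneg hR, hfbs,
      show (f (xs (n + 1)) : F) - ((f (xs n) : F) - R • p) =
        (f (xs (n + 1)) : F) - f (xs n) + R • p by module, hp.norm_add_smul] at h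
    have := le_max_left (hi p ((f (xs (n + 1)) : F) - f (xs n)) + R)
      (hi p (-((f (xs (n + 1)) : F) - f (xs n))) - R)
    linarith
  have upX : ∀ i j, i ≤ j → hi e ((xs i : X) - xs j) ≤ 0 := by
    intro i j hij
    induction j, hij using Nat.le_induction with
    | base => rw [sub_self, he.hi_zero]
    | succ j _ ih =>
      have := he.hi_add_le ((xs i : X) - xs j) ((xs j : X) - xs (j + 1))
      rw [sub_add_sub_cancel] at this
      linarith [stepX j]
  have upY : ∀ i j, i ≤ j → hi p ((f (xs j) : F) - f (xs i)) ≤ 0 := by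
    intro i j hij
    induction j, hij using Nat.le_induction with
    | base => rw [sub_self, hp.hi_zero]
    | succ j _ ih =>
      have := hp.hi_add_le ((f (xs (j + 1)) : F) - f (xs j)) ((f (xs j) : F) - f (xs i))
      rw [sub_add_sub_cancel] at this
      linarith [stepY j]
  let M : ℕ → ℕ → ℝ := fun i j => ‖(xs j : X) - xs i‖
  have grow : ∀ i j, i + 1 ≤ j → 0 < M (i + 1) j → M (i + 1) j + 2 * R ≤ M i j := by
    intro i j hij hpos
    have h := dist_f f (xs j) (bs i)
    rw [hfbs, hbs,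
      show (f (xs j) : F) - ((f (xs i) : F) - R • p) = (f (xs j) : F) - f (xs i) + R • p by module,
      show (xs j : X) - ((xs (i + 1) : X) - R • e) = (xs j : X) - xs (i + 1) + R • e by module,
      hp.norm_add_smul, he.norm_add_smul] at h
    have a1 : M (i + 1) j ≤ hi e ((xs j : X) - xs (i + 1)) := by
      have := he.norm_eq ((xs j : X) - xs (i + 1))
      rw [neg_sub] at this
      rcases max_choice (hi e ((xs j : X) - xs (i + 1))) (hi e ((xs (i + 1) : X) - xs j))
        with hc | hc <;> rw [hc] at this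
      · exact this.le
      · have := upX (i + 1) j hij
        simp only [M] at hpos; linarith
    have a2 := le_max_left (hi e ((xs j : X) - xs (i + 1)) + R)
      (hi e (-((xs j : X) - xs (i + 1))) - R)
    rw [← h] at a2
    have a3 : hi p (-((f (xs j) : F) - f (xs i))) ≤ M i j := by
      refine (hp.hi_le _).trans (le_of_eq ?_)
      rw [norm_neg, dist_f]
    rcases max_choice (hi p ((f (xs j) : F) - f (xs i)) + R)
      (hi p (-((f (xs j) : F) - f (xs i))) - R) with hc | hc <;> rw [hc] at a2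
    · linarith [upY i j (by omega)]
    · linarith
  have hfix : xs 1 = x := by
    by_contra hne
    have hne' : ∀ n, xs (n + 1) ≠ xs n := by
      intro n
      induction n with
      | zero => exact hne
      | succ n ih =>
        intro heq
        apply ih
        have a := hfbs (n + 1)
        have hb : bs (n + 1) = bs n := Subtype.ext (by
          rw [hbs, hbs, heq])
        rw [hb, hfbs] at a
        exact (f.injective (Subtype.ext (sub_left_inj.1 a))).symm
    obtain ⟨k, hk⟩ := exists_nat_gt (2 / (2 * R))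
    rw [div_lt_iff₀ (by positivity)] at hk
    have key : ∀ d, d ≤ k → 0 < M (k - d) (k + 1) ∧ 2 * R * d ≤ M (k - d) (k + 1) := by
      intro d hd
      induction d with
      | zero =>
        simp only [Nat.sub_zero, Nat.cast_zero, mul_zero, M]
        exact ⟨norm_pos_iff.2 (sub_ne_zero.2 fun h => hne' k (Subtype.ext h)), norm_nonneg _⟩
      | succ d ih =>
        obtain ⟨p1, p2⟩ := ih (by omega)
        have hsucc : k - (d + 1) + 1 = k - d := by omega
        have := grow (k - (d + 1)) (k + 1) (by omega) (by rw [hsucc]; exact p1)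
        rw [hsucc] at this
        push_cast
        exact ⟨by linarith, by linarith⟩
    have := (key k le_rfl).2
    have h2 : M (k - k) (k + 1) ≤ 2 := (norm_sub_le _ _).trans (by rw [norm_coe, norm_coe]; norm_num)
    linarith
  have hb : bs 0 = x' := Subtype.ext (by rw [hbs, zero_add, hfix, hx'])
  rw [← hb, hfbs]
  rfl

/-- Every sphere isometry of a space with a unit point extends linearly. -/
theorem tingley_upoint {e : X} (he : UPoint e)
    (f : sphere (0 : X) 1 → sphere (0 : F) 1) (hf : Isometry f) (hs : Function.Surjective f) :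
    ∃ T : X ≃ₗᵢ[ℝ] F, ∀ x : sphere (0 : X) 1, T (x : X) = (f x : F) := by
  classical
  let φ : sphere (0 : X) 1 ≃ᵢ sphere (0 : F) 1 :=
    ⟨Equiv.ofBijective f ⟨hf.injective, hs⟩, hf⟩
  let E : sphere (0 : X) 1 := ⟨e, mem_sphere_zero_iff_norm.2 he.1⟩
  obtain ⟨hp, hneg⟩ := upoint_image he φ (E := E) rfl
  set p : F := (φ E : F) with hpd
  have h1 : ∀ x : sphere (0 : X) 1, hi p (φ x : F) = hi e (x : X) := fun x => by
    rw [he.hi_unit (norm_coe x), hp.hi_unit (norm_coe _), ← sub_neg_eq_add, ← hneg, dist_f,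
      coe_neg_sphere, sub_neg_eq_add]
  have h2 : ∀ x : sphere (0 : X) 1, hi p (-(φ x : F)) = hi e (-(x : X)) := fun x => by
    rw [he.hi_unit (x := -(x : X)) (by rw [norm_neg, norm_coe]),
      hp.hi_unit (x := -(φ x : F)) (by rw [norm_neg, norm_coe]), ← norm_neg, neg_add_rev, neg_neg,
      ← sub_eq_neg_add, hpd, dist_f, ← norm_neg (-(x : X) + e), neg_add_rev, neg_neg,
      ← sub_eq_neg_add]
  -- centred vectors
  have hcn : ∀ z : X, hi e z = hi e (-z) → hi e z = ‖z‖ := fun z hz => by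
    rw [he.norm_eq z, ← hz, max_self]
  have hup : ∀ z : X, hi e z = hi e (-z) → ‖z‖ ≤ 1 →
      ‖z + (1 - ‖z‖) • e‖ = 1 ∧ ‖z + (-(1 - ‖z‖)) • e‖ = 1 := fun z hz hz1 => by
    have hzn := hcn z hz
    rw [he.norm_add_smul, he.norm_add_smul, ← hz, hzn, max_eq_left (by linarith),
      max_eq_right (by linarith)]
    constructor <;> ring
  let γ : X → F := fun z => if h : hi e z = hi e (-z) ∧ ‖z‖ ≤ 1 then
    (φ ⟨_, mem_sphere_zero_iff_norm.2 (hup z h.1 h.2).1⟩ : F) - (1 - ‖z‖) • p else 0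
  have hγ : ∀ z, hi e z = hi e (-z) → ‖z‖ ≤ 1 → ∀ (s : ℝ), (s = 1 - ‖z‖ ∨ s = -(1 - ‖z‖)) →
      ∀ x : sphere (0 : X) 1, (x : X) = z + s • e → (φ x : F) = γ z + s • p := by
    intro z hz hz1 s hs' x hx
    have hzn := hcn z hz
    simp only [γ]
    rw [dif_pos ⟨hz, hz1⟩]
    set x₀ : sphere (0 : X) 1 := ⟨_, mem_sphere_zero_iff_norm.2 (hup z hz hz1).1⟩
    rcases hs' with rfl | rfl
    · rw [Subtype.ext (a1 := x) (a2 := x₀) hx, sub_add_cancel]
    · have h := translate he hp φ h1 h2 (R := 2 * (1 - ‖z‖)) (by linarith) x₀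
        (by change hi e (z + (1 - ‖z‖) • e) = 1; rw [he.hi_shift, hzn]; ring)
        (by change hi e (-(z + (1 - ‖z‖) • e)) = _; rw [he.hi_neg_shift, ← hz, hzn]; ring)
        x (by rw [hx]; change _ = z + (1 - ‖z‖) • e - _; module)
      rw [h]; module
  have hγc : ∀ z, hi e z = hi e (-z) → ‖z‖ ≤ 1 →
      hi p (γ z) = ‖z‖ ∧ hi p (-γ z) = ‖z‖ := by
    intro z hz hz1
    have hzn := hcn z hz
    set x₀ : sphere (0 : X) 1 := ⟨_, mem_sphere_zero_iff_norm.2 (hup z hz hz1).1⟩
    have h := hγ z hz hz1 _ (Or.inl rfl) x₀ rfl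
    have a1 := h1 x₀
    have a2 := h2 x₀
    rw [h, show (x₀ : X) = z + (1 - ‖z‖) • e from rfl, hp.hi_shift, he.hi_shift, hzn] at a1
    rw [h, show (x₀ : X) = z + (1 - ‖z‖) • e from rfl, hp.hi_neg_shift, he.hi_neg_shift, ← hz,
      hzn] at a2
    exact ⟨by linarith, by linarith⟩
  -- differences with centred vectors of the half ball
  have hwin : ∀ z w, hi e z = hi e (-z) → hi e w = hi e (-w) → ‖z‖ ≤ 1 → ‖w‖ ≤ 1 / 2 →
      hi p (γ z - γ w) = hi e (z - w) ∧ hi p (γ w - γ z) = hi e (w - z) := by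
    intro z w hz hw hz1 hw2
    have hw1 : ‖w‖ ≤ 1 := by linarith
    have d1 := dist_f φ ⟨_, mem_sphere_zero_iff_norm.2 (hup z hz hz1).1⟩
      ⟨_, mem_sphere_zero_iff_norm.2 (hup w hw hw1).2⟩
    have d2 := dist_f φ ⟨_, mem_sphere_zero_iff_norm.2 (hup z hz hz1).2⟩
      ⟨_, mem_sphere_zero_iff_norm.2 (hup w hw hw1).1⟩
    rw [hγ z hz hz1 _ (Or.inl rfl) _ rfl, hγ w hw hw1 _ (Or.inr rfl) _ rfl] at d1
    rw [hγ z hz hz1 _ (Or.inr rfl) _ rfl, hγ w hw hw1 _ (Or.inl rfl) _ rfl] at d2
    set R := 1 - ‖z‖ + (1 - ‖w‖) with hR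
    simp only at d1 d2
    rw [show γ z + (1 - ‖z‖) • p - (γ w + -(1 - ‖w‖) • p) = γ z - γ w + R • p by
        rw [hR]; module,
      show z + (1 - ‖z‖) • e - (w + -(1 - ‖w‖) • e) = z - w + R • e by rw [hR]; module,
      hp.norm_add_smul, he.norm_add_smul, neg_sub, neg_sub] at d1
    rw [show γ z + -(1 - ‖z‖) • p - (γ w + (1 - ‖w‖) • p) = γ z - γ w + (-R) • p by
        rw [hR]; module,
      show z + -(1 - ‖z‖) • e - (w + (1 - ‖w‖) • e) = z - w + (-R) • e by rw [hR]; module,
      hp.norm_add_smul, he.norm_add_smul, neg_sub, neg_sub] at d2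
    obtain ⟨g1, g2⟩ := hγc z hz hz1
    obtain ⟨k1, k2⟩ := hγc w hw hw1
    have hzn := hcn z hz
    have hwn := hcn w hw
    have A1 : hi p (γ z - γ w) ≤ ‖z‖ + ‖w‖ := by
      rw [sub_eq_add_neg]; exact (hp.hi_add_le _ _).trans_eq (by rw [g1, k2])
    have A2 : hi p (γ w - γ z) ≤ ‖z‖ + ‖w‖ := by
      rw [sub_eq_add_neg]; exact (hp.hi_add_le _ _).trans_eq (by rw [k1, g2]; ring)
    have A3 : hi p (γ z) ≤ hi p (γ z - γ w) + hi p (γ w) := by
      simpa using hp.hi_add_le (γ z - γ w) (γ w)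
    have A4 : hi p (-γ z) ≤ hi p (γ w - γ z) + hi p (-γ w) := by
      have := hp.hi_add_le (γ w - γ z) (-γ w)
      rwa [show γ w - γ z + -γ w = -γ z by abel] at this
    have B1 : hi e (z - w) ≤ ‖z‖ + ‖w‖ :=
      (he.hi_le _).trans (norm_sub_le _ _)
    have B2 : hi e (w - z) ≤ ‖z‖ + ‖w‖ :=
      (he.hi_le _).trans ((norm_sub_le _ _).trans_eq (add_comm _ _))
    have B3 : hi e z ≤ hi e (z - w) + hi e w := by simpa using he.hi_add_le (z - w) w
    have B4 : hi e (-z) ≤ hi e (w - z) + hi e (-w) := by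
      have := he.hi_add_le (w - z) (-w)
      rwa [show w - z + -w = -z by abel] at this
    rw [g1, k1] at A3
    rw [g2, k2] at A4
    rw [← hz, ← hw] at B4
    rw [hzn, hwn] at B3 B4
    rw [max_eq_left (by linarith), max_eq_left (by linarith)] at d1
    rw [max_eq_right (by linarith), max_eq_right (by linarith)] at d2
    exact ⟨by linarith, by linarith⟩
  -- the isometry on the half ball
  let c : X → ℝ := fun v => (hi e v - hi e (-v)) / 2
  let cen : X → X := fun v => v + (-c v) • e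
  have hcen : ∀ v, hi e (cen v) = hi e (-cen v) ∧ ‖cen v‖ ≤ ‖v‖ := by
    intro v
    have a : hi e (cen v) = (hi e v + hi e (-v)) / 2 := by
      simp only [cen, c]; rw [he.hi_shift]; ring
    have b : hi e (-cen v) = (hi e v + hi e (-v)) / 2 := by
      simp only [cen, c]; rw [he.hi_neg_shift]; ring
    refine ⟨by rw [a, b], ?_⟩
    have := he.hi_le v
    have := he.hi_le (-v)
    rw [norm_neg] at this
    rw [he.norm_eq (cen v), a, b, max_self]
    linarith
  have hdec : ∀ v, v = cen v + c v • e := fun v => by simp only [cen]; module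
  let G : X → F := fun v => γ (cen v) + c v • p
  have hGiso : ∀ a b, ‖a‖ ≤ 1 / 2 → ‖b‖ ≤ 1 / 2 → ‖G a - G b‖ = ‖a - b‖ := by
    intro a b ha hb
    obtain ⟨w1, w2⟩ := hwin (cen a) (cen b) (hcen a).1 (hcen b).1
      (by linarith [(hcen a).2]) (by linarith [(hcen b).2])
    rw [show G a - G b = γ (cen a) - γ (cen b) + (c a - c b) • p by simp only [G]; module,
      show a - b = cen a - cen b + (c a - c b) • e by
        conv_lhs => rw [hdec a, hdec b]
        module,
      hp.norm_add_smul, he.norm_add_smul, neg_sub, neg_sub, w1, w2]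
  have hG0 : G 0 = 0 := by
    have hc0 : c 0 = 0 := by simp [c]
    have hz0 : cen 0 = 0 := by simp [cen, hc0]
    have h := hγ 0 (by simp) (by simp) 1 (Or.inl (by simp)) E (by simp [E])
    simp only [G, hz0, hc0, zero_smul, add_zero]
    rw [one_smul, ← hpd] at h
    exact right_eq_add.1 h
  have hGn : ∀ v, ‖v‖ ≤ 1 / 2 → ‖G v‖ = ‖v‖ := fun v hv => by
    simpa [hG0] using hGiso v 0 hv (by simp)
  -- every centred vector is reached
  have hsurjγ : ∀ y : F, hi p y = hi p (-y) → ‖y‖ ≤ 1 →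
      ∃ z, hi e z = hi e (-z) ∧ ‖z‖ = ‖y‖ ∧ γ z = y := by
    intro y hy hy1
    have hyn : hi p y = ‖y‖ := by rw [hp.norm_eq y, ← hy, max_self]
    have hn : ‖y + (1 - ‖y‖) • p‖ = 1 := by
      rw [hp.norm_add_smul, ← hy, hyn, max_eq_left (by linarith)]; ring
    obtain ⟨x, hx⟩ := φ.surjective ⟨_, mem_sphere_zero_iff_norm.2 hn⟩
    have hx' : (φ x : F) = y + (1 - ‖y‖) • p := by rw [hx]
    have a1 := h1 x
    have a2 := h2 x
    rw [hx', hp.hi_shift, hyn] at a1
    rw [hx', hp.hi_neg_shift, ← hy, hyn] at a2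
    set z : X := (x : X) + (-(1 - ‖y‖)) • e with hzd
    have z1 : hi e z = ‖y‖ := by rw [hzd, he.hi_shift]; linarith
    have z2 : hi e (-z) = ‖y‖ := by rw [hzd, he.hi_neg_shift]; linarith
    have hzn : ‖z‖ = ‖y‖ := by rw [he.norm_eq z, z1, z2, max_self]
    refine ⟨z, by rw [z1, z2], hzn, ?_⟩
    have h := hγ z (by rw [z1, z2]) (by rw [hzn]; exact hy1) _ (Or.inl rfl) x
      (by rw [hzn, hzd]; module)
    rw [hx', hzn] at h
    exact (add_right_cancel h).symm
  have hGs : ∀ y : F, ∃ v, ‖y‖ ≤ 1 / 2 → ‖v‖ ≤ 1 / 2 ∧ G v = y := by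
    intro y
    by_cases hy : ‖y‖ ≤ 1 / 2
    · set t := (hi p y - hi p (-y)) / 2 with ht
      set y₀ : F := y + (-t) • p with hy₀
      have a : hi p y₀ = (hi p y + hi p (-y)) / 2 := by rw [hy₀, hp.hi_shift, ht]; ring
      have b : hi p (-y₀) = (hi p y + hi p (-y)) / 2 := by rw [hy₀, hp.hi_neg_shift, ht]; ring
      have hn : ‖y₀‖ ≤ ‖y‖ := by
        have := hp.hi_le y
        have := hp.hi_le (-y)
        rw [norm_neg] at this
        rw [hp.norm_eq y₀, a, b, max_self]; linarith
      obtain ⟨z, hz, hzn, hzy⟩ := hsurjγ y₀ (by rw [a, b]) (by linarith)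
      obtain ⟨g1, g2⟩ := hγc z hz (by linarith)
      refine ⟨z + t • e, fun _ => ?_⟩
      have hc : c (z + t • e) = t := by
        simp only [c]; rw [he.hi_shift, he.hi_neg_shift, ← hz]; ring
      have hnv : ‖z + t • e‖ = ‖y‖ := by
        rw [show y = y₀ + t • p by rw [hy₀]; module, he.norm_add_smul, hp.norm_add_smul,
          ← hzy, g1, g2, ← hz, hcn z hz]
      refine ⟨by rw [hnv]; exact hy, ?_⟩
      simp only [G, cen, hc]
      rw [add_assoc, ← add_smul, add_neg_cancel, zero_smul, add_zero, hzy, hy₀]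
      module
    · exact ⟨0, fun h => absurd h hy⟩
  choose Gi hGi using hGs
  let g : X → F := fun v => (2 : ℝ) • G ((1 / 2 : ℝ) • v)
  let g' : F → X := fun y => (2 : ℝ) • Gi ((1 / 2 : ℝ) • y)
  have hhalf : ∀ v : X, ‖v‖ ≤ 1 → ‖(1 / 2 : ℝ) • v‖ ≤ 1 / 2 := fun v hv => by
    rw [norm_smul, Real.norm_of_nonneg (by norm_num)]; linarith
  have hhalf' : ∀ v : F, ‖v‖ ≤ 1 → ‖(1 / 2 : ℝ) • v‖ ≤ 1 / 2 := fun v hv => by
    rw [norm_smul, Real.norm_of_nonneg (by norm_num)]; linarith
  have hgiso : ∀ a b, ‖a‖ ≤ 1 → ‖b‖ ≤ 1 → ‖g a - g b‖ = ‖a - b‖ := fun a b ha hb => by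
    simp only [g]
    rw [← smul_sub, norm_smul, hGiso _ _ (hhalf a ha) (hhalf b hb), ← smul_sub, norm_smul]
    norm_num; ring
  have hgn : ∀ a, ‖a‖ ≤ 1 → ‖g a‖ = ‖a‖ := fun a ha => by
    simp only [g]
    rw [norm_smul, hGn _ (hhalf a ha), norm_smul]
    norm_num; ring
  have hgg : ∀ y, ‖y‖ ≤ 1 → g (g' y) = y ∧ ‖g' y‖ ≤ 1 := fun y hy => by
    obtain ⟨a, b⟩ := hGi _ (hhalf' y hy)
    refine ⟨?_, ?_⟩
    · simp only [g, g', smul_smul]
      norm_num [b, smul_smul]
    · simp only [g']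
      rw [norm_smul, Real.norm_of_nonneg (by norm_num)]; linarith
  obtain ⟨T, hT⟩ := Fin.exists_linear_of_ball_isometry (g := g) (h := g') hgn
    (fun y hy => by rw [← hgn _ (hgg y hy).2, (hgg y hy).1]) (fun y hy => (hgg y hy).1)
    (fun a ha => by
      have hga : ‖g a‖ ≤ 1 := (hgn a ha).trans_le ha
      have := hgiso _ a (hgg _ hga).2 ha
      rw [(hgg _ hga).1, sub_self, norm_zero] at this
      exact sub_eq_zero.1 (norm_eq_zero.1 this.symm)) hgiso
  have hTG : ∀ v, ‖v‖ ≤ 1 / 2 → T v = G v := fun v hv => by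
    have h := hT ((2 : ℝ) • v) (by
      rw [norm_smul, Real.norm_of_nonneg (by norm_num)]; linarith)
    simp only [g, smul_smul] at h
    norm_num at h
    exact h
  have hTe : T e = p := by
    have h := hTG ((1 / 2 : ℝ) • e) (by rw [norm_smul, he.1]; norm_num)
    have hh : hi e ((1 / 2 : ℝ) • e) = 1 / 2 := by
      have := he.hi_shift 0 (1 / 2)
      rw [zero_add, he.hi_zero] at this
      linarith
    have hh' : hi e (-((1 / 2 : ℝ) • e)) = -(1 / 2) := by
      have := he.hi_neg_shift 0 (1 / 2)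
      rw [zero_add, neg_zero, he.hi_zero] at this
      linarith
    have hc : c ((1 / 2 : ℝ) • e) = 1 / 2 := by simp only [c]; rw [hh, hh']; ring
    have hz : cen ((1 / 2 : ℝ) • e) = 0 := by simp only [cen, hc]; module
    have hγ0 : γ 0 = 0 := by
      have := hG0
      simpa [G, c, cen] using this
    simp only [G, hc, hz, hγ0, zero_add, map_smul] at h
    exact smul_right_injective F (by norm_num : (1 / 2 : ℝ) ≠ 0) h
  have hThi : ∀ v, hi p (T v) = hi e v := fun v => by
    rw [hi, hi, ← hTe, T.norm_map, ← map_smul, ← map_add, T.norm_map]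
  refine ⟨T, fun x => ?_⟩
  change T (x : X) = (φ x : F)
  have hzc := hcen (x : X)
  set z := cen (x : X) with hzd
  have hz1 : ‖z‖ ≤ 1 := hzc.2.trans (norm_coe x).le
  have hzn := hcn z hzc.1
  have hzh : hi e z = (hi e (x : X) + hi e (-(x : X))) / 2 := by
    simp only [hzd, cen, c]; rw [he.hi_shift]; ring
  have hs' : c (x : X) = 1 - ‖z‖ ∨ c (x : X) = -(1 - ‖z‖) := by
    have := he.norm_eq (x : X)
    rw [norm_coe] at this
    rw [← hzn, hzh]
    rcases max_choice (hi e (x : X)) (hi e (-(x : X))) with h | h <;> rw [h] at this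
    · left; simp only [c]; linarith
    · right; simp only [c]; linarith
  have hfx := hγ z hzc.1 hz1 _ hs' x (by rw [hzd]; exact hdec _)
  obtain ⟨g1, g2⟩ := hγc z hzc.1 hz1
  set y : X := T.symm (γ z) with hy
  have hyT : T y = γ z := T.apply_symm_apply _
  have y1 : hi e y = ‖z‖ := by rw [← hThi, hyT, g1]
  have y2 : hi e (-y) = ‖z‖ := by rw [← hThi, map_neg, hyT, g2]
  suffices y = z by
    rw [hfx, ← hyT, this, hzd, ← hTe, ← map_smul, ← map_add, ← hdec]
  let a : X → ℝ := fun v => hi e v + hi e (-v)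
  have hadd : ∀ v w, a (v + w) ≤ a v + a w := fun v w => by
    simp only [a]
    rw [neg_add]
    linarith [he.hi_add_le v w, he.hi_add_le (-v) (-w)]
  have hsmul : ∀ (r : ℝ) v, a (r • v) = |r| * a v := fun r v => by
    simp only [a]
    rcases le_total 0 r with hr | hr
    · rw [← smul_neg, he.hi_smul _ hr, he.hi_smul _ hr, abs_of_nonneg hr]; ring
    · rw [show r • v = (-r) • (-v) by module, ← smul_neg, neg_neg,
        he.hi_smul _ (neg_nonneg.2 hr), he.hi_smul _ (neg_nonneg.2 hr), abs_of_nonpos hr]; ring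
  set d := y - z with hd
  set ρ := a z with hρ
  have hρ2 : ρ ≤ 2 := by simp only [hρ, a]; rw [← hzc.1, hzn]; linarith
  have hwin' : ∀ s : ℝ, a (z + s • d) ≤ ρ → a (z + (-s) • d) = a (z + (2 - s) • d) := by
    intro s hs2
    set v := (1 / 2 : ℝ) • (z + s • d) with hv
    set w := cen v with hw
    have hwh : hi e w = a (z + s • d) / 4 := by
      have := hsmul (1 / 2) (z + s • d)
      rw [abs_of_nonneg (by norm_num : (0 : ℝ) ≤ 1 / 2)] at this
      simp only [hw, cen, c]
      rw [he.hi_shift, hv]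
      simp only [a] at this ⊢
      linarith
    have hwn : ‖w‖ ≤ 1 / 2 := by rw [← hcn w (hcen v).1, hwh]; linarith
    obtain ⟨w1, w2⟩ := hwin z w hzc.1 (hcen v).1 hz1 hwn
    have hGw : T w = γ w := by
      rw [hTG w hwn]
      have hc : c w = 0 := by
        simp only [c]; rw [(hcen v).1, sub_self, zero_div]
      simp [G, cen, hc]
    rw [← hyT, ← hGw, ← map_sub, hThi] at w1
    rw [← hyT, ← hGw, ← map_sub, hThi] at w2
    have ea : a (y - w) = a (z - w) := by
      simp only [a, neg_sub]; rw [w1, w2]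
    have shift : ∀ (u : X) (t : ℝ), a (u + t • e) = a u := fun u t => by
      simp only [a]; rw [he.hi_shift, he.hi_neg_shift]; ring
    have e1 : z - w = (1 / 2 : ℝ) • (z + (-s) • d) + c v • e := by
      simp only [hw, cen, hv]; module
    have e2 : y - w = (1 / 2 : ℝ) • (z + (2 - s) • d) + c v • e := by
      simp only [hw, cen, hv, hd]; module
    rw [e1, e2, shift, shift, hsmul, hsmul, abs_of_nonneg (by norm_num : (0 : ℝ) ≤ 1 / 2)] at ea
    linarith
  have hρy : a (z + d) = ρ := by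
    rw [hd, add_sub_cancel]
    simp only [hρ, a]
    rw [y1, y2, ← hzc.1, hzn]
  have grow : ∀ k : ℕ, a (z + (2 * k : ℝ) • d) ≤ ρ ∧ a (z + (-(2 * k : ℝ)) • d) ≤ ρ := by
    intro k
    induction k with
    | zero => simp [hρ]
    | succ k ih =>
      have a1 := hwin' _ ih.2
      rw [neg_neg, sub_neg_eq_add, show (2 : ℝ) + 2 * k = 2 * ((k + 1 : ℕ) : ℝ) by push_cast; ring]
        at a1
      have b1 := a1 ▸ ih.1
      refine ⟨b1, ?_⟩
      have a2 := hwin' _ b1
      rw [show (2 : ℝ) - 2 * ((k + 1 : ℕ) : ℝ) = -(2 * k) by push_cast; ring] at a2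
      rw [a2]; exact ih.2
  have had : a d = 0 := by
    by_contra hne
    have hpos : 0 < a d := lt_of_le_of_ne (he.hi_sum_nonneg d) (Ne.symm hne)
    obtain ⟨k, hk⟩ := exists_nat_gt (2 * ρ / (2 * a d))
    rw [div_lt_iff₀ (by positivity)] at hk
    have b := hadd (z + (2 * k : ℝ) • d) (-z)
    rw [show z + (2 * k : ℝ) • d + -z = (2 * k : ℝ) • d by abel, hsmul,
      abs_of_nonneg (by positivity : (0 : ℝ) ≤ 2 * k),
      show a (-z) = ρ by simp only [hρ, a, neg_neg]; ring] at b
    linarith [(grow k).1]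
  simp only [a] at had
  have hd0 : d + (hi e (-d)) • e = 0 :=
    he.eq_zero (by rw [he.hi_shift]; linarith) (by rw [he.hi_neg_shift]; linarith)
  have hh : hi e y = hi e z + (-hi e (-d)) := by
    rw [show y = z + (-hi e (-d)) • e by
      rw [← sub_eq_zero, ← hd0, hd]; module, he.hi_shift]
  rw [y1, hzn] at hh
  have : hi e (-d) = 0 := by linarith
  rw [this, zero_smul, add_zero, hd, sub_eq_zero] at hd0
  exact hd0

/-- The vertex of a sum-norm product with a line is a unit point. -/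
theorem upoint_sumProd (Z : Type*) [NormedAddCommGroup Z] [NormedSpace ℝ Z] :
    UPoint (WithLp.toLp 1 ((0 : Z), (1 : ℝ))) := by
  refine ⟨by simp [WithLp.prod_norm_eq_of_L1], fun x hx => ?_⟩
  rw [WithLp.prod_norm_eq_of_L1, Real.norm_eq_abs] at hx
  have := norm_nonneg x.fst
  rcases le_total 0 x.snd with h | h
  · left
    rw [abs_of_nonneg h] at hx
    rw [WithLp.prod_norm_eq_of_L1, Real.norm_eq_abs]
    simp only [WithLp.add_fst, WithLp.add_snd, WithLp.toLp_fst, WithLp.toLp_snd, add_zero]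
    rw [abs_of_nonneg (by linarith)]; linarith
  · right
    rw [abs_of_nonpos h] at hx
    rw [WithLp.prod_norm_eq_of_L1, Real.norm_eq_abs]
    simp only [WithLp.sub_fst, WithLp.sub_snd, WithLp.toLp_fst, WithLp.toLp_snd, sub_zero]
    rw [abs_of_nonpos (by linarith)]; linarith

end Vale.Agent.P084.LL
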